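import Vale.Agent.P286ER.IF

/-!
# Functions on the complement of the origin
-/

namespace Vale.Agent.P286ER

open Vale.Agent.P286 Vale.Agent.P286E HahnSeries

noncomputable section

attribute [-instance] HahnSeries.powerSeriesAlgebra

variable {A B : Type} [CommRing A] [CommRing B]

theorem ord_zero (n : ℤ) : Ord n (0 : Ls A) := fun _ _ => rfl

theorem ord_mono {m n : ℤ} {u : Ls A} (h : Ord n u) (hm : m ≤ n) : Ord m u :=
  fun k hk => h k (by omega)

theorem ord_add {n : ℤ} {u w : Ls A} (hu : Ord n u) (hw : Ord n w) : Ord n (u + w) :=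
  fun k hk => by rw [coeff_add, hu k hk, hw k hk, add_zero]

theorem ord_neg {n : ℤ} {u : Ls A} (hu : Ord n u) : Ord n (-u) :=
  fun k hk => by rw [coeff_neg, hu k hk, neg_zero]

theorem ord_sub {n : ℤ} {u w : Ls A} (hu : Ord n u) (hw : Ord n w) : Ord n (u - w) :=
  fun k hk => by rw [coeff_sub, hu k hk, hw k hk, sub_zero]

theorem ord_smul {n : ℤ} {u : Ls A} (c : A) (hu : Ord n u) : Ord n (c • u) :=
  fun k hk => by rw [coeff_smul, hu k hk, smul_zero]

theorem ord_sum {ι : Type} {n : ℤ} (s : Finset ι) {u : ι → Ls A} (h : ∀ i ∈ s, Ord n (u i)) :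
    Ord n (∑ i ∈ s, u i) := fun k hk => by
  rw [coeff_sum]
  exact Finset.sum_eq_zero fun i hi => h i hi k hk

theorem ord_single (n : ℤ) (c : A) : Ord n (single n c : Ls A) :=
  fun _ hk => coeff_single_of_ne hk.ne

theorem ord_C (c : A) : Ord 0 (C c : Ls A) := ord_single 0 c

theorem ord_one : Ord 0 (1 : Ls A) := ord_single 0 1

theorem ord_succ {n : ℤ} {u : Ls A} (h : Ord n u) (h' : u.coeff n = 0) : Ord (n + 1) u :=
  fun k hk => by
    rcases (by omega : k < n ∨ k = n) with h1 | rfl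
    · exact h k h1
    · exact h'

theorem ord_mul {m n : ℤ} {u w : Ls A} (hu : Ord m u) (hw : Ord n w) : Ord (m + n) (u * w) :=
  fun k hk => by
  rw [coeff_mul]
  refine Finset.sum_eq_zero fun p hp => ?_
  have h : p.1 + p.2 = k := ((Finset.mem_antidiagonal (hs := u.isPWO_support)
    (ht := w.isPWO_support)).1 hp).2.2
  by_cases h1 : p.1 < m
  · rw [hu _ h1, zero_mul]
  · rw [hw p.2 (by omega), mul_zero]

theorem coeff_mul_lead {m n : ℤ} {u w : Ls A} (hu : Ord m u) (hw : Ord n w) :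
    (u * w).coeff (m + n) = u.coeff m * w.coeff n := by
  have e : u * w = single m (u.coeff m) * w + (u - single m (u.coeff m)) * w := by ring
  have h1 : Ord (m + 1) (u - single m (u.coeff m)) :=
    ord_succ (ord_sub hu (ord_single m _)) (by simp)
  rw [e, coeff_add, ord_mul h1 hw _ (by omega), add_zero, add_comm m n, coeff_single_mul_add]

theorem exists_ord (u : Ls A) : ∃ n : ℕ, Ord (-n) u :=
  ⟨(-u.order).toNat, fun _ hk => coeff_eq_zero_of_lt_order (by omega)⟩

theorem ord_order (u : Ls A) : Ord u.order u := fun _ hk => coeff_eq_zero_of_lt_order hk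

theorem lm_coeff (f : A →+* B) (u : Ls A) (k : ℤ) : (lm f u).coeff k = f (u.coeff k) := rfl

theorem ord_lm (f : A →+* B) {n : ℤ} {u : Ls A} (h : Ord n u) : Ord n (lm f u) :=
  fun k hk => by rw [lm_coeff, h k hk, map_zero]

theorem lm_single (f : A →+* B) (n : ℤ) (c : A) : lm f (single n c) = single n (f c) :=
  HahnSeries.map_single (f := f.toZeroHom)

theorem lm_C (f : A →+* B) (c : A) : lm f (C c) = C (f c) := lm_single f 0 c

theorem lm_xs (f : A →+* B) : lm f (xs A) = xs B := by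
  rw [xs, lm_single, map_one]; rfl

theorem lm_inj {f : A →+* B} (hf : Function.Injective f) : Function.Injective (lm f) :=
  fun _ _ h => HahnSeries.ext (funext fun k => hf (congrArg (fun z : Ls B => z.coeff k) h))

theorem lm_smul (f : A →+* B) (c : A) (u : Ls A) : lm f (c • u) = f c • lm f u := by
  rw [← C_mul_eq_smul, map_mul, lm_C, C_mul_eq_smul]

/-- A polynomial in `x`. -/
def ev (A : Type) [CommRing A] : Polynomial A →+* Ls A := Polynomial.eval₂RingHom C (xs A)

theorem ev_monomial (n : ℕ) (a : A) : ev A (Polynomial.monomial n a) = single (-(2 * n : ℤ)) a := by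
  change Polynomial.eval₂ C (xs A) _ = _
  rw [Polynomial.eval₂_monomial, xs, single_pow, C_apply, single_mul_single]
  simp [mul_comm]

theorem ev_C (a : A) : ev A (Polynomial.C a) = C a := Polynomial.eval₂_C _ _

theorem ev_X : ev A Polynomial.X = xs A := Polynomial.eval₂_X _ _

theorem ev_coeff (p : Polynomial A) (k : ℕ) : (ev A p).coeff (-(2 * k : ℤ)) = p.coeff k := by
  induction p using Polynomial.induction_on' with
  | add p q hp hq => rw [map_add, coeff_add, hp, hq, Polynomial.coeff_add]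
  | monomial n a =>
    rw [ev_monomial, Polynomial.coeff_monomial, coeff_single]
    by_cases h : n = k
    · rw [if_pos h, if_pos (by rw [h])]
    · rw [if_neg h, if_neg (by omega)]

theorem ev_coeff_zero (p : Polynomial A) (j : ℤ) (hj : ∀ k : ℕ, j ≠ -(2 * k : ℤ)) :
    (ev A p).coeff j = 0 := by
  induction p using Polynomial.induction_on' with
  | add p q hp hq => rw [map_add, coeff_add, hp, hq, add_zero]
  | monomial n a => rw [ev_monomial, coeff_single_of_ne (hj n)]

theorem ord_ev (p : Polynomial A) : Ord (-(2 * p.natDegree : ℤ)) (ev A p) := fun j hj => by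
  by_cases h : ∃ k : ℕ, j = -(2 * k : ℤ)
  · obtain ⟨k, rfl⟩ := h
    rw [ev_coeff]
    exact Polynomial.coeff_eq_zero_of_natDegree_lt (by omega)
  · exact ev_coeff_zero p j fun k hk => h ⟨k, hk⟩

variable (E : Ell)

theorem ord_y : Ord (-3) E.y := by
  have h0 : E.y ≠ 0 := fun h => by simpa [h] using E.lead
  have h6 : Ord (-6) (E.y * E.y) := by
    rw [← sq, E.eqn]
    refine ord_add (ord_add ?_ (ord_smul _ (ord_mono (ord_single (-2) 1) (by omega))))
      (ord_smul _ (ord_mono ord_one (by omega)))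
    rw [xs, single_pow]
    simpa using ord_single (A := ℂ) (-6) 1
  have h1 : ¬ E.y.order + E.y.order < -6 := fun h => by
    have := h6 _ h
    rw [coeff_mul_lead (ord_order _) (ord_order _)] at this
    exact h0 (coeff_order_eq_zero.1 (mul_self_eq_zero.1 this))
  exact ord_mono (ord_order _) (by omega)

variable [Algebra ℂ A]

/-- The function `y`. -/
def ys (A : Type) [CommRing A] [Algebra ℂ A] : Ls A := lm (algebraMap ℂ A) E.y

theorem ord_ys : Ord (-3) (ys E A) := ord_lm _ (ord_y E)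

theorem ys_lead : (ys E A).coeff (-3) = 1 := by rw [ys, lm_coeff, E.lead, map_one]

theorem ys_sq : ys E A ^ 2 =
    xs A ^ 3 + C (algebraMap ℂ A E.a) * xs A + C (algebraMap ℂ A E.b) := by
  rw [ys, ← map_pow, E.eqn, map_add, map_add, map_pow, lm_smul, lm_smul, lm_xs, map_one,
    ← C_mul_eq_smul, ← C_mul_eq_smul, mul_one]

variable {E}

theorem reg_iff {w : Ls A} : E.Reg w ↔ ∃ p q : Polynomial A, w = ev A p + ev A q * ys E A :=
  Iff.rfl

theorem reg_add {u w : Ls A} (hu : E.Reg u) (hw : E.Reg w) : E.Reg (u + w) := by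
  obtain ⟨p, q, rfl⟩ := reg_iff.1 hu
  obtain ⟨p', q', rfl⟩ := reg_iff.1 hw
  exact reg_iff.2 ⟨p + p', q + q', by rw [map_add, map_add]; ring⟩

theorem reg_mul {u w : Ls A} (hu : E.Reg u) (hw : E.Reg w) : E.Reg (u * w) := by
  obtain ⟨p, q, rfl⟩ := reg_iff.1 hu
  obtain ⟨p', q', rfl⟩ := reg_iff.1 hw
  refine reg_iff.2 ⟨p * p' + q * q' * (Polynomial.X ^ 3 + Polynomial.C (algebraMap ℂ A E.a) *
    Polynomial.X + Polynomial.C (algebraMap ℂ A E.b)), p * q' + q * p', ?_⟩
  simp only [map_add, map_mul, map_pow, ev_C, ev_X]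
  rw [← ys_sq E]
  ring

theorem reg_C (a : A) : E.Reg (C a : Ls A) :=
  reg_iff.2 ⟨Polynomial.C a, 0, by rw [ev_C, map_zero, zero_mul, add_zero]⟩

theorem reg_zero : E.Reg (0 : Ls A) := by simpa using reg_C (E := E) (0 : A)

theorem reg_one : E.Reg (1 : Ls A) := by simpa using reg_C (E := E) (1 : A)

theorem reg_x : E.Reg (xs A) :=
  reg_iff.2 ⟨Polynomial.X, 0, by rw [ev_X, map_zero, zero_mul, add_zero]⟩

theorem reg_y : E.Reg (ys E A) := reg_iff.2 ⟨0, 1, by rw [map_zero, map_one, one_mul, zero_add]⟩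

theorem reg_smul (c : A) {u : Ls A} (hu : E.Reg u) : E.Reg (c • u) := by
  rw [← C_mul_eq_smul]
  exact reg_mul (reg_C c) hu

theorem reg_neg {u : Ls A} (hu : E.Reg u) : E.Reg (-u) := by
  simpa using reg_smul (-1 : A) hu

theorem reg_sub {u w : Ls A} (hu : E.Reg u) (hw : E.Reg w) : E.Reg (u - w) := by
  rw [sub_eq_add_neg]
  exact reg_add hu (reg_neg hw)

theorem reg_sum {ι : Type} (s : Finset ι) {u : ι → Ls A} (h : ∀ i ∈ s, E.Reg (u i)) :
    E.Reg (∑ i ∈ s, u i) :=
  Finset.sum_induction u (fun z => E.Reg z) (fun _ _ => reg_add) reg_zero h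

theorem reg_pow {u : Ls A} (hu : E.Reg u) (n : ℕ) : E.Reg (u ^ n) := by
  induction n with
  | zero => simpa using reg_one
  | succ n ih => rw [pow_succ]; exact reg_mul ih hu

theorem reg_lm [Algebra ℂ B] (f : A →ₐ[ℂ] B) {u : Ls A} (hu : E.Reg u) :
    E.Reg (lm (f : A →+* B) u) := by
  obtain ⟨p, q, rfl⟩ := reg_iff.1 hu
  have h : ∀ p : Polynomial A, lm (f : A →+* B) (ev A p) = ev B (p.map (f : A →+* B)) := fun p => by
    induction p using Polynomial.induction_on' with
    | add p q hp hq => rw [map_add, map_add, hp, hq, Polynomial.map_add, map_add]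
    | monomial n a => rw [Polynomial.map_monomial, ev_monomial, ev_monomial, lm_single]
  have hy : lm (f : A →+* B) (ys E A) = ys E B := by
    rw [ys, lm_lm, AlgHom.comp_algebraMap]; rfl
  exact reg_iff.2 ⟨p.map f, q.map f, by rw [map_add, map_mul, h, h, hy]⟩

/-- Functions with a pole of order `n ≠ 1`. -/
theorem exists_pole (n : ℕ) (hn : n ≠ 1) :
    ∃ r : Ls A, E.Reg r ∧ Ord (-n) r ∧ r.coeff (-n) = 1 := by
  have hx : ∀ k : ℕ, xs A ^ k = single (-(2 * k : ℤ)) 1 := fun k => by
    rw [xs, single_pow]; simp [mul_comm]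
  rcases Nat.even_or_odd' n with ⟨k, rfl | rfl⟩
  · refine ⟨xs A ^ k, reg_pow reg_x k, ?_, ?_⟩
    · rw [hx]; exact_mod_cast ord_single _ _
    · rw [hx]; exact_mod_cast coeff_single_same _ _
  · obtain ⟨l, rfl⟩ : ∃ l, k = l + 1 := ⟨k - 1, by omega⟩
    have e : (-((2 * (l + 1) + 1 : ℕ) : ℤ)) = -(2 * l : ℤ) + -3 := by push_cast; ring
    refine ⟨xs A ^ l * ys E A, reg_mul (reg_pow reg_x l) reg_y, ?_, ?_⟩
    · rw [e, hx]; exact ord_mul (ord_single _ _) (ord_ys E)
    · rw [e, hx, coeff_mul_lead (ord_single _ _) (ord_ys E), ys_lead, coeff_single_same, one_mul]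

theorem reg_span (E : Ell) (w : Ls A) : ∃ r, E.Reg r ∧ Ord (-1) (w - r) := by
  obtain ⟨n, hn⟩ := exists_ord w
  induction n generalizing w with
  | zero => exact ⟨0, reg_zero, by simpa using ord_mono hn (by simp)⟩
  | succ n ih =>
    by_cases h : n = 0
    · subst h
      exact ⟨0, reg_zero, by simpa using hn⟩
    · obtain ⟨r, h1, h2, h3⟩ := exists_pole (E := E) (A := A) (n + 1) (by omega)
      have h4 := ord_succ (ord_sub hn (ord_smul (w.coeff (-((n + 1 : ℕ) : ℤ))) h2))
        (by rw [coeff_sub, coeff_smul, h3, smul_eq_mul, mul_one, sub_self])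
      obtain ⟨r', h5, h6⟩ := ih _ (ord_mono h4 (by push_cast; omega))
      exact ⟨_, reg_add (reg_smul _ h1) h5, by rwa [← sub_sub]⟩

theorem rep_of_ord {p q : Polynomial A} (h : Ord (-1) (ev A p + ev A q * ys E A)) :
    q = 0 ∧ p = Polynomial.C (p.coeff 0) := by
  have hq : q = 0 := by
    have h1 := h (-(2 * q.natDegree : ℤ) + -3) (by omega)
    rw [coeff_add, ev_coeff_zero p _ (fun k => by omega), zero_add,
      coeff_mul_lead (ord_ev q) (ord_ys E), ys_lead, mul_one, ev_coeff] at h1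
    exact Polynomial.leadingCoeff_eq_zero.1 h1
  refine ⟨hq, Polynomial.ext fun k => ?_⟩
  rw [Polynomial.coeff_C]
  split_ifs with hk
  · rw [hk]
  · rw [hq, map_zero, zero_mul, add_zero] at h
    rw [← ev_coeff]
    exact h _ (by omega)

theorem reg_h0 {r : Ls A} (hr : E.Reg r) (h : Ord (-1) r) : r = C (r.coeff 0) := by
  obtain ⟨p, q, rfl⟩ := reg_iff.1 hr
  obtain ⟨h1, h2⟩ := rep_of_ord h
  rw [h1, h2, map_zero, zero_mul, add_zero, ev_C, C_apply, C_apply, coeff_single_same]

theorem reg_eq_zero {r : Ls A} (hr : E.Reg r) (h : Ord 1 r) : r = 0 := by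
  rw [reg_h0 hr (ord_mono h (by omega)), h 0 (by omega), map_zero]

theorem rep_zero {p q : Polynomial A} (h : ev A p + ev A q * ys E A = 0) : p = 0 ∧ q = 0 := by
  obtain ⟨h1, h2⟩ := rep_of_ord (E := E) (p := p) (q := q) (h ▸ ord_zero _)
  refine ⟨?_, h1⟩
  rw [h1, map_zero, zero_mul, add_zero] at h
  have := ev_coeff p 0
  rw [h] at this
  rw [h2, ← this]
  exact map_zero _

theorem exists_res (E : Ell) (A : Type) [CommRing A] [Algebra ℂ A] :
    ∃ l : Ls A →ₗ[A] A, IsRes E l := by
  choose ρ h1 h2 using reg_span (A := A) E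
  have key : ∀ w r, E.Reg r → Ord (-1) (w - r) → (w - ρ w).coeff (-1) = (w - r).coeff (-1) := by
    intro w r hr ho
    have h3 : Ord (-1) (r - ρ w) := by
      have := ord_sub (h2 w) ho
      rwa [sub_sub_sub_cancel_left] at this
    have h4 := reg_h0 (reg_sub hr (h1 w)) h3
    have e : w - ρ w = w - r + (r - ρ w) := by ring
    rw [e, coeff_add, h4, C_apply, coeff_single_of_ne (by omega), add_zero]
  refine ⟨{ toFun := fun w => (w - ρ w).coeff (-1)
            map_add' := fun u w => ?_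
            map_smul' := fun c w => ?_ }, fun r hr => ?_, fun w hw => ?_⟩
  · have e : u + w - (ρ u + ρ w) = (u - ρ u) + (w - ρ w) := by ring
    rw [key _ _ (reg_add (h1 u) (h1 w)) (e ▸ ord_add (h2 u) (h2 w)), e, coeff_add]
  · rw [key _ _ (reg_smul c (h1 w)) (by rw [← smul_sub]; exact ord_smul c (h2 w)), ← smul_sub,
      coeff_smul]
    rfl
  · change (r - ρ r).coeff (-1) = 0
    rw [key r r hr (by rw [sub_self]; exact ord_zero _), sub_self]
    rfl
  · change (w - ρ w).coeff (-1) = _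
    rw [key w 0 reg_zero (by rwa [sub_zero]), sub_zero]

theorem reg : REG := fun E A _ _ =>
  ⟨ord_y E, fun _ _ => reg_add, fun _ _ => reg_mul, reg_C, reg_x, reg_y, reg_span E,
    fun _ => reg_h0, exists_res E A⟩

end

end Vale.Agent.P286ER
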