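import Vale.Agent.P286E.Defs
import Vale.Agent.P286.H527.Noeth

/-!
# Riemann-Roch kit and the vanishing along the unstable locus: definitions and statements
-/

namespace Vale.Agent.P286ER

open CategoryTheory Matrix LaurentPolynomial Vale.Agent.P286 Vale.Agent.P286E

noncomputable section

/-! ### The part on twisted `D`-modules -/

/-- The axioms of a site. -/
structure Good (S : St.TSite) : Prop where
  f_id : ∀ X : S.C, S.f (𝟙 X) = AlgHom.id ℂ (S.R X)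
  f_comp : ∀ {X Y Z : S.C} (φ : X ⟶ Y) (ψ : Y ⟶ Z), S.f (φ ≫ ψ) = (S.f ψ).comp (S.f φ)
  unit : ∀ {X Y : S.C} (φ : X ⟶ Y), IsUnit (S.dl φ)
  dl_comp : ∀ {X Y Z : S.C} (φ : X ⟶ Y) (ψ : Y ⟶ Z), S.dl (φ ≫ ψ) = S.dl ψ * S.f ψ (S.dl φ)

/-- The test object `Y` has a one-parameter group of automorphisms of nonzero weight. -/
def GmAt (S : St.TSite) (Y : S.C) : Prop :=
  ∃ (Z : S.C) (ι : Y ⟶ Z) (σ σ' : Z ⟶ Z) (j : (S.R Y)[T;T⁻¹] ≃ₐ[ℂ] S.R Z) (m : ℤ), m ≠ 0 ∧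
    (∀ a, S.f ι a = j (C a)) ∧ S.dl ι = 1 ∧ S.f σ = AlgHom.id ℂ (S.R Z) ∧ σ ≫ σ' = 𝟙 Z ∧
    S.dl σ = j (T m)

/-- The generic point of `V(p)` has a one-parameter group of automorphisms of nonzero weight. -/
def Bad (S : St.TSite) (X : S.C) (p : Ideal (S.R X)) : Prop :=
  ∃ h : S.R X, h ∉ p ∧ ∃ (Y : S.C) (ρ : X ⟶ Y), GmAt S Y ∧ (∀ a, S.f ρ a = 0 ↔ a ∈ p) ∧
    IsUnit (S.f ρ h) ∧ ∀ b, ∃ (a : S.R X) (n : ℕ), b * S.f ρ h ^ n = S.f ρ a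

/-- Devissage: vanishing at the primes over `I` gives the vanishing for all `I`-torsion modules. -/
def TORS : Prop := ∀ (A : Type) [CommRing A] [IsNoetherianRing A] (P : MCx A),
  (∀ i, Module.Flat A (P.X i)) → ∀ I : Set A,
  (∀ p : Ideal A, p.IsPrime → I ⊆ p → ∃ h : A, h ∉ p ∧
    ∃ (N : Type) (_ : AddCommGroup N) (_ : Module A N) (u : (A ⧸ p) →ₗ[A] N),
      IsLocalizedModule (Submonoid.powers h) u ∧ (P.tens N).Acyclic) →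
  ∀ (N : Type) [AddCommGroup N] [Module A N], (∀ a ∈ I, ∀ x : N, ∃ n : ℕ, a ^ n • x = 0) →
    (P.tens N).Acyclic

/-- Cartesian complexes have no cohomology supported on a bad locus. -/
def KILLG : Prop := ∀ S : St.TSite, Good S → (∀ m : ℤ, m ≠ 0 → ∀ k : ℤ, (k : ℂ) + S.s * m ≠ 0) →
  ∀ (K : St.Cx S), St.Cx.Cart K → ∀ (X : S.C) (I : Set (S.R X)),
  (∀ p : Ideal (S.R X), p.IsPrime → I ⊆ p → Bad S X p) →
  ∀ (P : MCx (S.R X)) (p : ∀ i, P.X i → K.S X i), St.IsFlatRes P (K.fn X) (K.d X) p →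
  (∀ (Y : S.C) (φ : X ⟶ Y), ∃ q, St.IsBaseCh (S.f φ).r P (K.fn Y) (K.d Y) (K.tr φ) p q) →
  ∀ (N : Type) [AddCommGroup N] [Module (S.R X) N],
    (∀ a ∈ I, ∀ x : N, ∃ n : ℕ, a ^ n • x = 0) → (P.tens N).Acyclic

/-! ### The weight -/

/-- The operator which is `τ`, `1`, `τ'` on the eigenspaces of `H` for `1`, `0`, `-1`. -/
def gm {F R : Type} [Field F] [Ring R] [Algebra F R] (τ τ' : F) (H : R) : R :=
  1 + ((τ - τ') / 2) • H + ((τ + τ') / 2 - 1) • (H * H)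

/-- The weight of a one-parameter group on the determinant of the cohomology of `U`. -/
def WEIGHT : Prop := ∀ (F I : Type) [Field F] [CharZero F] (U H H' : Module.End F (I →₀ F)),
  FinRank (U - 1) → H * H * H = H → H' * H' * H' = H' → U * H = H' * U →
  (∀ x, H' x = x → ∃ y, U y = x) → (∃ x, x ≠ 0 ∧ U x = 0 ∧ H x = x) →
  (∀ x, U x = 0 → H x = -x → x = 0) →
  ∃ n : ℕ, 0 < n ∧ ∀ τ τ' : F, τ * τ' = 1 → fdet (gm τ τ' H * gm τ' τ H') = τ ^ n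

/-! ### Lattices -/

/-- The vectors in `tⁿ A[[t]]^N`. -/
def On (N : ℕ) (A : Type) [CommRing A] (n : ℤ) : Submodule A (Fin N → Ls A) where
  carrier := {w | ∀ i, Ord n (w i)}
  add_mem' hu hw i k hk := by
    rw [Pi.add_apply, HahnSeries.coeff_add, hu i k hk, hw i k hk, add_zero]
  zero_mem' _ _ _ := rfl
  smul_mem' c w hw i k hk := by
    rw [Pi.smul_apply, HahnSeries.coeff_smul, hw i k hk, smul_zero]

/-- The linear form with the kernel `O(E - o) + A[[t]]`. -/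
def IsRes (E : Ell) {A : Type} [CommRing A] [Algebra ℂ A] (l : Ls A →ₗ[A] A) : Prop :=
  (∀ r, E.Reg r → l r = 0) ∧ ∀ w, Ord (-1) w → l w = w.coeff (-1)

/-- Functions on `E_A - o`. -/
structure RegKit (E : Ell) (A : Type) [CommRing A] [Algebra ℂ A] : Prop where
  ord_y : Ord (-3) E.y
  add : ∀ u w : Ls A, E.Reg u → E.Reg w → E.Reg (u + w)
  mul : ∀ u w : Ls A, E.Reg u → E.Reg w → E.Reg (u * w)
  const : ∀ a : A, E.Reg (HahnSeries.C a : Ls A)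
  x : E.Reg (xs A)
  y : E.Reg (lm (algebraMap ℂ A) E.y)
  span : ∀ w : Ls A, ∃ r, E.Reg r ∧ Ord (-1) (w - r)
  h0 : ∀ r : Ls A, E.Reg r → Ord (-1) r → r = HahnSeries.C (r.coeff 0)
  res : ∃ l : Ls A →ₗ[A] A, IsRes E l

/-- Functions on `E_A - o`. -/
def REG : Prop := ∀ (E : Ell) (A : Type) [CommRing A] [Algebra ℂ A], RegKit E A

/-- Discrete modules of rank one are invertible. -/
def INV : Prop := ∀ (E : Ell) (F : Type) [Field F] [Algebra ℂ F] (D : Submodule F (Ls F)),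
  D ≠ ⊥ → (∀ r, E.Reg r → ∀ d ∈ D, r * d ∈ D) → (∃ n, ∀ d ∈ D, Ord n d → d = 0) →
  ∃ (k : ℕ) (d u : Fin k → Ls F), (∀ i, d i ∈ D) ∧ (∀ i, ∀ d' ∈ D, E.Reg (u i * d')) ∧
    ∑ i, d i * u i = 1

/-- Serre duality for an isotropic lattice with an admissible basis over a field. -/
def DUAL : Prop := ∀ (F : Type) [Field F] [Algebra ℂ F] (N : ℕ) (Φ : Matrix (Fin N) (Fin N) ℂ),
  Φ.det ≠ 0 → ∀ l : Ls F →ₗ[F] F, (∀ w, Ord (-1) w → l w = w.coeff (-1)) →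
  ∀ (v : ℕ × Fin N → Fin N → Ls F) (M : Submodule F (Fin N → Ls F)), Adm v →
  LinearMap.range (lin v) = M → (∀ m ∈ M, ∀ m' ∈ M, l (m ⬝ᵥ cst F Φ *ᵥ m') = 0) →
  (∀ u, (∀ m ∈ M, l (u ⬝ᵥ cst F Φ *ᵥ m) = 0) → u ∈ M) ∧
  (M ⊓ On N F 1 = ⊥ → M ⊔ On N F (-1) = ⊤) ∧
  (∃ s : Fin N → Fin N → Ls F, LinearIndependent F s ∧ ∀ i, s i ∈ M ⊓ On N F (-1)) ∧
  (∃ n, M ⊓ On N F n = ⊥) ∧ ∃ s : Fin N → Fin N → Ls F, (∀ i, s i ∈ M) ∧ (of s).det ≠ 0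

/-- The conditions on a test object (over any algebra). -/
structure IsOb (E : Ell) (G : Grp) {A : Type} [CommRing A] [Algebra ℂ A]
    (M : Submodule A (Fin G.N → Ls A)) (T : ℕ × Fin 3 → Fin 3 → Ls A) : Prop where
  adm : ∃ v, Adm v ∧ LinearMap.range (lin v) = M
  reg : ∀ w : Ls A, E.Reg w → ∀ m ∈ M, w • m ∈ M
  form : ∀ m ∈ M, ∀ m' ∈ M, E.Reg (m ⬝ᵥ cst A G.F *ᵥ m')
  vol : ∀ m : Fin G.N → Fin G.N → Ls A, (∀ i, m i ∈ M) → E.Reg (of m).det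
  admT : Adm T
  lie : ∀ p, ∀ m ∈ M, G.hat (T p) *ᵥ m ∈ M

theorem isOb {E : Ell} {G : Grp} (X : Ob E G) : IsOb E G X.M X.T :=
  ⟨X.adm, X.reg, X.form, X.vol, X.admT, X.lie⟩

/-- The base change of a lattice. -/
def bcM {A B : Type} [CommRing A] [CommRing B] {N : ℕ} (f : A →+* B)
    (M : Submodule A (Fin N → Ls A)) : Submodule B (Fin N → Ls B) :=
  Submodule.span B ((fun m => lm f ∘ m) '' (M : Set (Fin N → Ls A)))

/-- Semistability over a field: `H¹(V(o)) = 0` and `V(o)` is generically generated by its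
sections. -/
def Sst {F : Type} [Field F] {N : ℕ} (M : Submodule F (Fin N → Ls F)) : Prop :=
  M ⊔ On N F (-1) = ⊤ ∧
    ∃ s : Fin N → Fin N → Ls F, (∀ i, s i ∈ M ⊓ On N F (-1)) ∧ (of s).det ≠ 0

/-- The operator `ξ ↦ i h × ξ`. -/
def rot {A : Type} [CommRing A] [Algebra ℂ A] (h : Fin 3 → Ls A) : Matrix (Fin 3) (Fin 3) (Ls A) :=
  SO3.hat h

/-- Over a field the span of `T` consists of all infinitesimal automorphisms of `M`. -/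
def STAB : Prop := ∀ (E : Ell) (G : Grp), G = SL2 ∨ G = SO3 → ∀ (F : Type) [Field F] [Algebra ℂ F]
  (M : Submodule F (Fin G.N → Ls F)) (T : ℕ × Fin 3 → Fin 3 → Ls F), IsOb E G M T →
  ∀ ξ, (∀ m ∈ M, G.hat ξ *ᵥ m ∈ M) → ξ ∈ LinearMap.range (lin T)

/-- An unstable bundle over a field has a semisimple infinitesimal automorphism `h`, with
`H¹ = 0 ≠ H⁰` for the eigenvalue `1` and `H⁰ = 0` for the eigenvalue `-1` of `ad h`. -/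
def FLD : Prop := ∀ (E : Ell) (G : Grp), G = SL2 ∨ G = SO3 → ∀ (F : Type) [Field F] [Algebra ℂ F]
  (M : Submodule F (Fin G.N → Ls F)) (T : ℕ × Fin 3 → Fin 3 → Ls F), IsOb E G M T → ¬ Sst M →
  ∃ h ∈ LinearMap.range (lin T) ⊓ On 3 F 0, h ⬝ᵥ h = 1 ∧
    (∀ ξ ∈ LinearMap.range (lin T), rot h *ᵥ ξ ∈ LinearMap.range (lin T)) ∧
    (∀ ξ, rot h *ᵥ ξ = ξ → ξ ∈ LinearMap.range (lin T) ⊔ On 3 F 0) ∧
    (∃ ξ ∈ LinearMap.range (lin T) ⊓ On 3 F 0, ξ ≠ 0 ∧ rot h *ᵥ ξ = ξ) ∧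
    ∀ ξ ∈ LinearMap.range (lin T) ⊓ On 3 F 0, rot h *ᵥ ξ = -ξ → ξ = 0

/-- The one-parameter group generated by `h`. -/
def ONEP : Prop := ∀ G : Grp, G = SL2 ∨ G = SO3 → ∀ (A : Type) [CommRing A] [Algebra ℂ A]
  (h : Fin 3 → Ls A), h ⬝ᵥ h = 1 → ∀ τ τ' : A, τ * τ' = 1 →
  ∃ (c c' : Fin 3 → A) (a a' : Matrix (Fin G.N) (Fin G.N) (Ls A)),
    a = ∑ i, c i • G.hat h ^ (i : ℕ) ∧ a' = ∑ i, c' i • G.hat h ^ (i : ℕ) ∧ a' * a = 1 ∧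
    a.det = 1 ∧ a'.det = 1 ∧ aᵀ * cst A G.F * a = cst A G.F ∧ a'ᵀ * cst A G.F * a' = cst A G.F ∧
    a.adjugate = a' ∧ a'.adjugate = a ∧
    G.ad a = 1 + (algebraMap ℂ A 2⁻¹ * (τ ^ 2 - τ' ^ 2)) • rot h +
      (algebraMap ℂ A 2⁻¹ * (τ ^ 2 + τ' ^ 2) - 1) • (rot h * rot h) ∧
    G.ad a' = 1 + (algebraMap ℂ A 2⁻¹ * (τ' ^ 2 - τ ^ 2)) • rot h +
      (algebraMap ℂ A 2⁻¹ * (τ' ^ 2 + τ ^ 2) - 1) • (rot h * rot h) ∧
    (∀ ξ, G.hat (G.ad a *ᵥ ξ) * a = a * G.hat ξ) ∧ ∀ ξ, G.hat (G.ad a' *ᵥ ξ) * a' = a' * G.hat ξ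

/-- Unstable points are bad. -/
def UNST : Prop := ∀ (E : Ell) (G : Grp), G = SL2 ∨ G = SO3 → ∀ (c : ℂ) (X : Ob E G)
  (p : Ideal X.A.R), p.IsPrime → (∀ (F : Type) [Field F] [Algebra ℂ F] (π : X.A.R →ₐ[ℂ] F),
    (∀ a, π a = 0 ↔ a ∈ p) → ¬ Sst (bcM (π : X.A.R →+* F) X.M)) → Bad (DE E G c) X p

end

end Vale.Agent.P286ER
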