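import Vale.Agent.P286ER.Inv

/-!
# Self-dual lattices of rank three with a positive isotropic line
-/

namespace Vale.Agent.P286ER

open Matrix Vale.Agent.P286 Vale.Agent.P286E

noncomputable section

attribute [-instance] HahnSeries.powerSeriesAlgebra

section Ring

variable {A : Type} [CommRing A] [Algebra ℂ A]

/-- The square root of `-1`. -/
def ii (A : Type) [CommRing A] [Algebra ℂ A] : Ls A := HahnSeries.C (algebraMap ℂ A Complex.I)

theorem ii_sq : ii A * ii A = -1 := by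
  rw [ii, ← map_mul, ← map_mul, Complex.I_mul_I, map_neg, map_neg, map_one, map_one]

omit [Algebra ℂ A] in
theorem c_smul {N : ℕ} (a : A) (v : Fin N → Ls A) : a • v = (HahnSeries.C a : Ls A) • v :=
  funext fun _ => HahnSeries.C_mul_eq_smul.symm

/-- The explicit form of `SL2.hat`. -/
def hat2 (ξ : Fin 3 → Ls A) : Matrix (Fin 2) (Fin 2) (Ls A) :=
  !![ξ 2, ξ 0 - ii A * ξ 1; ξ 0 + ii A * ξ 1, -ξ 2]

theorem sl2_hat (ξ : Fin 3 → Ls A) : SL2.hat ξ = hat2 ξ := by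
  have h : SL2.hat ξ = ξ 0 • cst (N := 2) A !![0, 1; 1, 0] +
      ξ 1 • cst (N := 2) A !![0, -Complex.I; Complex.I, 0] + ξ 2 • cst (N := 2) A !![1, 0; 0, -1] :=
    Fin.sum_univ_three _
  refine h.trans (Matrix.ext (m := Fin 2) (n := Fin 2) fun i j => ?_)
  fin_cases i <;> fin_cases j <;> simp [hat2, cst, ii, -HahnSeries.C_apply] <;> ring

theorem rot_eq (ξ : Fin 3 → Ls A) : rot ξ = !![0, -(ii A * ξ 2), ii A * ξ 1;
    ii A * ξ 2, 0, -(ii A * ξ 0); -(ii A * ξ 1), ii A * ξ 0, 0] := by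
  have h : SO3.hat ξ = ξ 0 • cst (N := 3) A !![0, 0, 0; 0, 0, -Complex.I; 0, Complex.I, 0] +
      ξ 1 • cst (N := 3) A !![0, 0, Complex.I; 0, 0, 0; -Complex.I, 0, 0] +
      ξ 2 • cst (N := 3) A !![0, -Complex.I, 0; Complex.I, 0, 0; 0, 0, 0] :=
    Fin.sum_univ_three _
  refine h.trans (Matrix.ext (m := Fin 3) (n := Fin 3) fun i j => ?_)
  fin_cases i <;> fin_cases j <;> simp [cst, ii, -HahnSeries.C_apply] <;> ring

theorem rot_mulVec (h ξ : Fin 3 → Ls A) : rot h *ᵥ ξ = ii A • crossProduct h ξ := by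
  rw [rot_eq]
  funext i
  fin_cases i <;> simp [cross_apply, mulVec, dotProduct, Fin.sum_univ_three] <;> ring

omit [Algebra ℂ A] in
theorem eq_smul_of_cross {a n w : Fin 3 → Ls A} (h : crossProduct a n = 0) (hw : n ⬝ᵥ w = 1) :
    a = (a ⬝ᵥ w) • n := by
  have h0 := congrFun h 0
  have h1 := congrFun h 1
  have h2 := congrFun h 2
  simp only [cross_apply, dotProduct, Fin.sum_univ_three, cons_val_zero, cons_val_one, cons_val,
    Pi.zero_apply] at h0 h1 h2 hw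
  funext i
  fin_cases i <;> simp [dotProduct, Fin.sum_univ_three]
  · linear_combination (-a 0) * hw + w 1 * h2 - w 2 * h1
  · linear_combination (-a 1) * hw + w 2 * h0 - w 0 * h2
  · linear_combination (-a 2) * hw + w 0 * h1 - w 1 * h0

omit [Algebra ℂ A] in
theorem cross_cross' (a b c : Fin 3 → Ls A) :
    crossProduct (crossProduct a b) c = (a ⬝ᵥ c) • b - (b ⬝ᵥ c) • a := by
  funext i
  fin_cases i <;> simp [cross_apply, dotProduct, Fin.sum_univ_three] <;> ring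

omit [Algebra ℂ A] in
theorem cross_dot' (a b c : Fin 3 → Ls A) : crossProduct a b ⬝ᵥ c = a ⬝ᵥ crossProduct b c := by
  simp [cross_apply, dotProduct, Fin.sum_univ_three]
  ring

omit [Algebra ℂ A] in
theorem on_dot {N : ℕ} {m n : ℤ} {u w : Fin N → Ls A} (hu : u ∈ On N A m) (hw : w ∈ On N A n) :
    Ord (m + n) (u ⬝ᵥ w) := ord_sum _ fun i _ => ord_mul (hu i) (hw i)

omit [Algebra ℂ A] in
theorem on_smul {N : ℕ} {m n : ℤ} {k : Ls A} {w : Fin N → Ls A} (hk : Ord m k)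
    (hw : w ∈ On N A n) : k • w ∈ On N A (m + n) := fun i => ord_mul hk (hw i)

omit [Algebra ℂ A] in
theorem on_cross {m n : ℤ} {u w : Fin 3 → Ls A} (hu : u ∈ On 3 A m) (hw : w ∈ On 3 A n) :
    crossProduct u w ∈ On 3 A (m + n) := fun i => by
  rw [cross_apply]
  fin_cases i <;> exact ord_sub (ord_mul (hu _) (hw _)) (ord_mul (hu _) (hw _))

omit [Algebra ℂ A] in
theorem on_mono {N : ℕ} {m n : ℤ} {w : Fin N → Ls A} (hw : w ∈ On N A n) (h : m ≤ n) :
    w ∈ On N A m := fun i => ord_mono (hw i) h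

end Ring

variable {E : Ell} {F : Type} [Field F] [Algebra ℂ F]

omit [Algebra ℂ F] in
theorem ord_inv {u : Ls F} (hu : u ≠ 0) : Ord (-u.order) u⁻¹ := by
  have h := HahnSeries.order_mul hu (inv_ne_zero hu)
  rw [mul_inv_cancel₀ hu, HahnSeries.order_one] at h
  exact ord_mono (ord_order _) (by omega)

omit [Algebra ℂ F] in
theorem le_order {u : Ls F} (hu : u ≠ 0) {n : ℤ} (h : Ord n u) : n ≤ u.order := by
  by_contra h'
  exact hu (HahnSeries.coeff_order_eq_zero.1 (h _ (by omega)))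

omit [Algebra ℂ F] in
/-- A nonzero vector is a multiple of a primitive vector. -/
theorem exists_prim {N : ℕ} {s : Fin N → Ls F} (hs : s ≠ 0) :
    ∃ (j : Fin N) (n : Fin N → Ls F), n ∈ On N F 0 ∧ n j = 1 ∧ s j ≠ 0 ∧ s = s j • n := by
  classical
  obtain ⟨j, hj, hm⟩ := Finset.exists_min_image (Finset.univ.filter fun i => s i ≠ 0)
    (fun i => (s i).order) (by
      obtain ⟨i, hi⟩ := Function.ne_iff.1 hs
      exact ⟨i, by simpa using hi⟩)
  have hj' : s j ≠ 0 := by simpa using hj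
  refine ⟨j, (s j)⁻¹ • s, fun i => ?_, inv_mul_cancel₀ hj', hj', by
    rw [smul_smul, mul_inv_cancel₀ hj', one_smul]⟩
  by_cases hi : s i = 0
  · change Ord 0 ((s j)⁻¹ * s i)
    rw [hi, mul_zero]
    exact ord_zero _
  · have := hm i (by simpa using hi)
    exact ord_mono (ord_mul (ord_inv hj') (ord_order (s i))) (by omega)

/-- Positivity of a module of rank one. -/
def Pos (D : Ls F → Prop) : Prop :=
  (∃ k, D k ∧ k ≠ 0 ∧ Ord 1 k) ∨
    ∃ k k', D k ∧ D k' ∧ Ord 0 k ∧ k.coeff 0 ≠ 0 ∧ Ord (-1) k' ∧ k'.coeff (-1) ≠ 0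

omit [Algebra ℂ F] in
theorem pos_of_pair {D : Ls F → Prop} {k k' : Ls F} (hD : ∀ a b : F, D (a • k + b • k'))
    (hk : Ord (-1) k) (hk' : Ord (-1) k')
    (hi : ∀ a b : F, a • k + b • k' = 0 → a = 0 ∧ b = 0) : Pos D := by
  by_cases hd : k.coeff (-1) * k'.coeff 0 - k.coeff 0 * k'.coeff (-1) = 0
  · left
    obtain ⟨a, b, hab, h1, h2⟩ : ∃ a b : F, ¬ (a = 0 ∧ b = 0) ∧
        a * k.coeff (-1) + b * k'.coeff (-1) = 0 ∧ a * k.coeff 0 + b * k'.coeff 0 = 0 := by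
      by_cases h : k'.coeff (-1) = 0 ∧ -k.coeff (-1) = 0
      · by_cases h' : k'.coeff 0 = 0 ∧ -k.coeff 0 = 0
        · exact ⟨1, 0, by simp, by simpa using h.2, by simpa using h'.2⟩
        · exact ⟨_, _, h', by linear_combination hd, by ring⟩
      · exact ⟨_, _, h, by ring, by linear_combination -hd⟩
    refine ⟨_, hD a b, fun h => hab (hi a b h), ?_⟩
    exact ord_succ (n := 0) (ord_succ (n := -1) (ord_add (ord_smul a hk) (ord_smul b hk'))
      (by simpa using h1)) (by simpa using h2)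
  · right
    refine ⟨_, _, hD (-k'.coeff (-1)) (k.coeff (-1)), hD (k'.coeff 0) (-k.coeff 0),
      ord_succ (n := -1) (ord_add (ord_smul _ hk) (ord_smul _ hk')) ?_, ?_,
      ord_add (ord_smul _ hk) (ord_smul _ hk'), ?_⟩
    · simp only [HahnSeries.coeff_add, HahnSeries.coeff_smul, smul_eq_mul]
      ring
    · simp only [HahnSeries.coeff_add, HahnSeries.coeff_smul, smul_eq_mul]
      exact fun h => hd (by linear_combination h)
    · simp only [HahnSeries.coeff_add, HahnSeries.coeff_smul, smul_eq_mul]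
      exact fun h => hd (by linear_combination h)

omit [Algebra ℂ F] in
theorem Pos.sq {D D' : Ls F → Prop} (h : Pos D) (hD : ∀ k k', D k → D k' → D' (k * k')) :
    Pos D' := by
  rcases h with ⟨k, h1, h2, h3⟩ | ⟨k, k', h1, h2, h3, h4, h5, h6⟩
  · exact Or.inl ⟨_, hD k k h1 h1, mul_ne_zero h2 h2, ord_mono (ord_mul h3 h3) (by omega)⟩
  · refine Or.inr ⟨_, _, hD k k h1 h1, hD k k' h1 h2, ord_mul h3 h3, ?_, ord_mul h3 h5, ?_⟩
    · exact coeff_mul_lead h3 h3 ▸ mul_ne_zero h4 h4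
    · exact coeff_mul_lead h3 h5 ▸ mul_ne_zero h4 h6

omit [Algebra ℂ F] in
theorem Pos.h0 {D : Ls F → Prop} (h : Pos D) : ∃ k, D k ∧ k ≠ 0 ∧ Ord 0 k := by
  rcases h with ⟨k, h1, h2, h3⟩ | ⟨k, k', h1, -, h3, h4, -⟩
  · exact ⟨k, h1, h2, ord_mono h3 (by omega)⟩
  · exact ⟨k, h1, fun h => h4 (by rw [h]; rfl), h3⟩

theorem Pos.h1 {D : Ls F → Prop} (h : Pos D) (hr : ∀ r k, E.Reg r → D k → D (r * k))
    (ha : ∀ k k', D k → D k' → D (k + k')) (κ : Ls F) : ∃ k, D k ∧ Ord 0 (κ - k) := by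
  have key : ∀ (k : Ls F) (n : ℤ), D k → k ≠ 0 → Ord n k →
      ∃ l, D l ∧ Ord (-1 + n) (κ - l) := fun k n h1 h2 h3 => by
    obtain ⟨r, h4, h5⟩ := reg_span E (κ * k⁻¹)
    refine ⟨_, hr r k h4 h1, ?_⟩
    have := ord_mul h5 h3
    rwa [sub_mul, inv_mul_cancel_right₀ h2] at this
  rcases h with ⟨k, h1, h2, h3⟩ | ⟨k, k', h1, h2, h3, h4, h5, h6⟩
  · exact key k 1 h1 h2 h3
  · obtain ⟨l, h7, h8⟩ := key k 0 h1 (fun h => h4 (by rw [h]; rfl)) h3
    refine ⟨_, ha _ _ h7 (hr _ _ (reg_C ((κ - l).coeff (-1) * (k'.coeff (-1))⁻¹)) h2), ?_⟩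
    rw [← sub_sub, HahnSeries.C_mul_eq_smul]
    exact ord_succ (n := -1) (ord_sub (ord_mono h8 (by omega)) (ord_smul _ h5)) (by
      rw [HahnSeries.coeff_sub (x := κ - l), HahnSeries.coeff_smul, smul_eq_mul,
        inv_mul_cancel_right₀ h6, sub_self])

/-- Self-dual lattices which are closed under the cross product. -/
structure SD (E : Ell) (N : Submodule F (Fin 3 → Ls F)) : Prop where
  reg : ∀ r : Ls F, E.Reg r → ∀ ξ ∈ N, r • ξ ∈ N
  dot : ∀ ξ ∈ N, ∀ η ∈ N, E.Reg (ξ ⬝ᵥ η)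
  dual : ∀ u, (∀ ξ ∈ N, E.Reg (u ⬝ᵥ ξ)) → u ∈ N
  cross : ∀ ξ ∈ N, ∀ η ∈ N, crossProduct ξ η ∈ N
  span : ∃ s : Fin 3 → Fin 3 → Ls F, (∀ i, s i ∈ N) ∧ (of s).det ≠ 0

/-- The conclusion of `FLD`. -/
def Split (N : Submodule F (Fin 3 → Ls F)) : Prop :=
  ∃ h ∈ N ⊓ On 3 F 0, h ⬝ᵥ h = 1 ∧ (∀ ξ ∈ N, rot h *ᵥ ξ ∈ N) ∧
    (∀ ξ, rot h *ᵥ ξ = ξ → ξ ∈ N ⊔ On 3 F 0) ∧
    (∃ ξ ∈ N ⊓ On 3 F 0, ξ ≠ 0 ∧ rot h *ᵥ ξ = ξ) ∧
    ∀ ξ ∈ N ⊓ On 3 F 0, rot h *ᵥ ξ = -ξ → ξ = 0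

theorem SD.split {N : Submodule F (Fin 3 → Ls F)} (hN : SD E N) {n w : Fin 3 → Ls F}
    (hn : n ∈ On 3 F 0) (hw : w ∈ On 3 F 0) (hnw : n ⬝ᵥ w = 1) (hnn : n ⬝ᵥ n = 0)
    (hp : Pos fun k : Ls F => k • n ∈ N) : Split N := by
  have : CharZero F := charZero_of_injective_algebraMap (algebraMap ℂ F).injective
  have h2 : (2 : Ls F) ≠ 0 := fun h => by
    have h' : (HahnSeries.C (2 : F) : Ls F) = HahnSeries.C 0 := by rw [map_ofNat, map_zero, h]
    exact two_ne_zero (HahnSeries.C_injective h')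
  obtain ⟨k0, hk0, hk0', hk0o⟩ := hp.h0
  have hH := hp.h1 (E := E) (fun r k hr hk => by rw [mul_smul]; exact hN.reg r hr _ hk)
    (fun k k' h h' => by rw [add_smul]; exact N.add_mem h h')
  have hn0 : n ≠ 0 := fun h => by simp [h] at hnw
  let D : Submodule F (Ls F) :=
    { carrier := {d | ∃ ξ ∈ N, n ⬝ᵥ ξ = d}
      add_mem' := by
        rintro _ _ ⟨ξ, h, rfl⟩ ⟨η, h', rfl⟩
        exact ⟨_, N.add_mem h h', dotProduct_add _ _ _⟩
      zero_mem' := ⟨0, N.zero_mem, dotProduct_zero _⟩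
      smul_mem' := by
        rintro c _ ⟨ξ, h, rfl⟩
        exact ⟨_, N.smul_mem c h, by
          rw [c_smul, dotProduct_smul, smul_eq_mul, HahnSeries.C_mul_eq_smul]⟩ }
  obtain ⟨m, d, u, hd, hu, hdu⟩ := inv E F D
    (fun h => by
      obtain ⟨s, h1, h3⟩ := hN.span
      refine hn0 (Matrix.eq_zero_of_mulVec_eq_zero h3 (funext fun i => ?_))
      have h4 : n ⬝ᵥ s i ∈ D := ⟨_, h1 i, rfl⟩
      rw [h, Submodule.mem_bot, dotProduct_comm] at h4
      exact h4)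
    (by
      rintro r hr _ ⟨ξ, h, rfl⟩
      exact ⟨_, hN.reg r hr _ h, dotProduct_smul _ _ _⟩)
    ⟨1, by
      rintro _ ⟨ξ, h, rfl⟩ ho
      have h3 := hN.dot _ hk0 _ h
      rw [smul_dotProduct, smul_eq_mul] at h3
      exact (mul_eq_zero.1 (reg_eq_zero h3 (ord_mul hk0o ho))).resolve_left hk0'⟩
  choose ξ hξ hξd using hd
  have hun : ∀ i, u i • n ∈ N := fun i => hN.dual _ fun η hη => by
    rw [smul_dotProduct, smul_eq_mul]
    exact hu i _ ⟨η, hη, rfl⟩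
  obtain ⟨w1, hw1⟩ : ∃ w1, w1 = ∑ i, u i • ξ i := ⟨_, rfl⟩
  have e1 : n ⬝ᵥ w1 = 1 := by
    rw [hw1, dotProduct_sum, ← hdu]
    exact Finset.sum_congr rfl fun i _ => by rw [dotProduct_smul, hξd, smul_eq_mul, mul_comm]
  have m1 : crossProduct n w1 ∈ N := by
    rw [hw1, map_sum]
    refine N.sum_mem fun i _ => ?_
    have := hN.cross _ (hun i) _ (hξ i)
    rwa [map_smul, LinearMap.smul_apply, ← map_smul] at this
  have e2 : crossProduct n (w1 - w) = (crossProduct n (w1 - w) ⬝ᵥ w) • n :=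
    eq_smul_of_cross (by
      rw [cross_cross', hnn, dotProduct_comm, dotProduct_sub, e1, hnw, sub_self, zero_smul,
        zero_smul, sub_self]) hnw
  obtain ⟨k, hk, hko⟩ := hH (crossProduct n (w1 - w) ⬝ᵥ w)
  obtain ⟨o, ho⟩ : ∃ o, o = crossProduct n (w1 - w) ⬝ᵥ w - k := ⟨_, rfl⟩
  rw [← ho] at hko
  obtain ⟨g, hg⟩ : ∃ g, g = crossProduct n w + o • n := ⟨_, rfl⟩
  have gN : g ∈ N := by
    have : g = crossProduct n w1 - k • n := by
      rw [hg, ho, sub_smul, ← e2, map_sub]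
      abel
    rw [this]
    exact N.sub_mem m1 hk
  have gO : g ∈ On 3 F 0 := by
    rw [hg]
    exact Submodule.add_mem _ (on_cross hn hw) (on_smul hko hn)
  have gn : crossProduct g n = -n := by
    rw [hg, map_add, LinearMap.add_apply, cross_cross', hnn, dotProduct_comm, hnw, map_smul,
      LinearMap.smul_apply, cross_self]
    simp
  have gdn : g ⬝ᵥ n = 0 := by
    rw [hg, add_dotProduct, smul_dotProduct, hnn, dotProduct_comm, dot_self_cross]
    simp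
  have gg : g ⬝ᵥ g = -1 := by
    have : g ⬝ᵥ crossProduct n w = -1 := by
      rw [← cross_dot', gn, neg_dotProduct, hnw]
    conv_lhs => rw [hg, dotProduct_add, ← hg, this, dotProduct_smul, gdn]
    simp
  have hrot : ∀ η, rot (algebraMap ℂ F Complex.I • g) *ᵥ η = -crossProduct g η := fun η => by
    rw [rot_mulVec, c_smul, map_smul, LinearMap.smul_apply, smul_smul]
    exact (congrArg (· • crossProduct g η) ii_sq).trans (neg_one_smul _ _)
  have line : ∀ η, η ⬝ᵥ n = 0 → η ⬝ᵥ g = 0 → η = (η ⬝ᵥ w) • n := fun η h h' => by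
    refine eq_smul_of_cross ?_ hnw
    have := cross_cross' g n η
    rw [gn, dotProduct_comm g, dotProduct_comm n, h, h', zero_smul, zero_smul, sub_self, map_neg,
      LinearMap.neg_apply, cross_anticomm] at this
    exact this
  have rn : ∀ κ : Ls F, -crossProduct g (κ • n) = κ • n := fun κ => by
    rw [map_smul, gn, smul_neg, neg_neg]
  refine ⟨algebraMap ℂ F Complex.I • g, ⟨N.smul_mem _ gN, Submodule.smul_mem _ _ gO⟩, ?_,
    fun η h => ?_, fun η h => ?_, ⟨k0 • n, ⟨hk0, on_smul hk0o hn⟩, ?_, ?_⟩, fun η h h' => ?_⟩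
  · rw [c_smul, smul_dotProduct, dotProduct_smul, gg, smul_smul]
    exact (congrArg (· • (-1 : Ls F)) ii_sq).trans (by simp)
  · rw [hrot]
    exact N.neg_mem (hN.cross _ gN _ h)
  · rw [hrot] at h
    have h3 : η ⬝ᵥ g = 0 := by rw [← h, neg_dotProduct, dotProduct_comm, dot_self_cross, neg_zero]
    have h4 : η ⬝ᵥ n = 0 := by
      have h5 : η ⬝ᵥ n = -(η ⬝ᵥ n) := by
        conv_lhs => rw [← h, cross_anticomm, cross_dot', gn, dotProduct_neg]
      exact (mul_eq_zero.1 (by linear_combination h5 : 2 * (η ⬝ᵥ n) = 0)).resolve_left h2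
    obtain ⟨l, h5, h6⟩ := hH (η ⬝ᵥ w)
    refine Submodule.mem_sup.2 ⟨_, h5, _, on_smul h6 hn, ?_⟩
    rw [← add_smul, add_sub_cancel, ← line η h4 h3]
  · exact smul_ne_zero hk0' hn0
  · rw [hrot, rn]
  · rw [hrot, neg_inj] at h'
    have h3 : η ⬝ᵥ g = 0 := by rw [← h', dotProduct_comm, dot_self_cross]
    have h4 : η ⬝ᵥ n = 0 := by
      by_contra h5
      obtain ⟨l, hl⟩ := exists_res E F
      obtain ⟨c, h6, h7⟩ := hH (HahnSeries.single (-1) 1 * (η ⬝ᵥ n)⁻¹)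
      have h8 := hl.1 _ (hN.dot _ h.1 _ h6)
      have h9 := ord_mul h7 (on_dot h.2 hn)
      have h10 := hl.2 _ (ord_mono h9 (by omega))
      rw [h9 _ (by omega), sub_mul, inv_mul_cancel_right₀ h5, map_sub, mul_comm,
        ← smul_eq_mul, smul_eq_mul, mul_comm, ← smul_eq_mul, ← dotProduct_smul, h8,
        hl.2 _ (ord_single _ _)] at h10
      simp at h10
    have h5 := line η h4 h3
    have h6 : -η = η := by
      conv_lhs => rw [← h', h5, rn, ← h5]
    have h7 : (2 : Ls F) • η = 0 := by rw [two_smul]; nth_rewrite 1 [← h6]; exact neg_add_cancel _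
    exact (smul_eq_zero.1 h7).resolve_left h2

end

end Vale.Agent.P286ER
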