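import Vale.Agent.P286ER.Core
import Vale.Agent.P286ER3.Dual

/-!
# Unstable bundles over a field
-/

namespace Vale.Agent.P286ER

open Matrix Vale.Agent.P286 Vale.Agent.P286E

noncomputable section

attribute [-instance] HahnSeries.powerSeriesAlgebra

section Ring

variable {A : Type} [CommRing A] [Algebra ℂ A]

theorem cst_one (N : ℕ) : cst A (1 : Matrix (Fin N) (Fin N) ℂ) = 1 :=
  Matrix.map_one _ (by simp) (by simp)

theorem form_sl2 (m m' : Fin 2 → Ls A) :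
    m ⬝ᵥ cst (N := 2) A !![0, 1; -1, 0] *ᵥ m' = m 0 * m' 1 - m 1 * m' 0 := by
  simp [cst, mulVec, dotProduct, Fin.sum_univ_two, -HahnSeries.C_apply]
  ring

theorem trace_hat2 (ξ η : Fin 3 → Ls A) : trace (hat2 ξ * hat2 η) = 2 * (ξ ⬝ᵥ η) := by
  simp [hat2, trace_fin_two, dotProduct, Fin.sum_univ_three]
  linear_combination (-2 * ξ 1 * η 1) * ii_sq (A := A)

theorem trace_rot (ξ η : Fin 3 → Ls A) : trace (rot ξ * rot η) = 2 * (ξ ⬝ᵥ η) := by
  simp [rot_eq, trace_fin_three, dotProduct, Fin.sum_univ_three]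
  linear_combination (-2 * (ξ 0 * η 0 + ξ 1 * η 1 + ξ 2 * η 2)) * ii_sq (A := A)

theorem comm_hat2 (ξ η : Fin 3 → Ls A) :
    hat2 ξ * hat2 η - hat2 η * hat2 ξ = (2 * ii A) • hat2 (crossProduct ξ η) := by
  refine Matrix.ext fun i j => ?_
  fin_cases i <;> fin_cases j <;> simp [hat2, cross_apply]
  · ring
  · linear_combination (2 * (ξ 2 * η 0 - ξ 0 * η 2)) * ii_sq (A := A)
  · linear_combination (-2 * (ξ 2 * η 0 - ξ 0 * η 2)) * ii_sq (A := A)
  · ring

theorem comm_rot (ξ η : Fin 3 → Ls A) :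
    rot ξ * rot η - rot η * rot ξ = ii A • rot (crossProduct ξ η) := by
  refine Matrix.ext fun i j => ?_
  fin_cases i <;> fin_cases j <;> simp [rot_eq, cross_apply] <;> ring

theorem trace_hat {G : Grp} (hG : G = SL2 ∨ G = SO3) (ξ η : Fin 3 → Ls A) :
    trace (G.hat ξ * G.hat η) = 2 * (ξ ⬝ᵥ η) := by
  rcases hG with rfl | rfl
  · rw [sl2_hat, sl2_hat]
    exact trace_hat2 ξ η
  · exact trace_rot ξ η

theorem comm_hat {G : Grp} (hG : G = SL2 ∨ G = SO3) : ∃ c : ℂ, ∀ ξ η : Fin 3 → Ls A,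
    G.hat (crossProduct ξ η) = (HahnSeries.C (algebraMap ℂ A c) : Ls A) •
      (G.hat ξ * G.hat η - G.hat η * G.hat ξ) := by
  rcases hG with rfl | rfl
  · refine ⟨(2 * Complex.I)⁻¹, fun ξ η => ?_⟩
    rw [sl2_hat, sl2_hat, sl2_hat]
    have e : (HahnSeries.C (algebraMap ℂ A (2 * Complex.I)⁻¹) : Ls A) * (2 * ii A) = 1 := by
      rw [ii, ← map_ofNat (HahnSeries.C : A →+* Ls A) 2, ← map_ofNat (algebraMap ℂ A) 2, ← map_mul,
        ← map_mul, ← map_mul, ← map_mul, inv_mul_cancel₀ (by simp), map_one, map_one]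
    have e' : hat2 (crossProduct ξ η) = (HahnSeries.C (algebraMap ℂ A (2 * Complex.I)⁻¹) : Ls A) •
        (hat2 ξ * hat2 η - hat2 η * hat2 ξ) := by rw [comm_hat2, smul_smul, e, one_smul]
    exact e'
  · refine ⟨Complex.I⁻¹, fun ξ η => ?_⟩
    have e : (HahnSeries.C (algebraMap ℂ A Complex.I⁻¹) : Ls A) * ii A = 1 := by
      rw [ii, ← map_mul, ← map_mul, inv_mul_cancel₀ Complex.I_ne_zero, map_one, map_one]
    have e' : rot (crossProduct ξ η) = (HahnSeries.C (algebraMap ℂ A Complex.I⁻¹) : Ls A) •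
        (rot ξ * rot η - rot η * rot ξ) := by rw [comm_rot, smul_smul, e, one_smul]
    exact e'

theorem hat_add (G : Grp) (ξ η : Fin 3 → Ls A) : G.hat (ξ + η) = G.hat ξ + G.hat η := by
  simp [Grp.hat, add_smul, Finset.sum_add_distrib]

theorem hat_smul (G : Grp) (r : Ls A) (ξ : Fin 3 → Ls A) : G.hat (r • ξ) = r • G.hat ξ := by
  simp [Grp.hat, Finset.smul_sum, smul_smul]

omit [Algebra ℂ A] in
theorem sum_det_update {n : Type} [Fintype n] [DecidableEq n] (m ψ : Matrix n n A) :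
    ∑ i, (m.updateRow i ((m * ψ) i)).det = trace ψ * m.det := by
  have h : ∀ i, (m.updateRow i ((m * ψ) i)).det = (m * ψ * adjugate m) i i := fun i => by
    rw [← cramer_transpose_apply, cramer_eq_adjugate_mulVec, ← adjugate_transpose, mul_apply]
    exact Finset.sum_congr rfl fun j _ => mul_comm _ _
  rw [Finset.sum_congr rfl fun i _ => h i]
  change trace (m * ψ * adjugate m) = _
  rw [trace_mul_cycle, adjugate_mul, Matrix.smul_mul, Matrix.one_mul, trace_smul, smul_eq_mul,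
    mul_comm]

variable {E : Ell} {G : Grp} {M : Submodule A (Fin G.N → Ls A)} {T : ℕ × Fin 3 → Fin 3 → Ls A}

theorem IsOb.hat_mem (h : IsOb E G M T) {ξ : Fin 3 → Ls A} (hξ : ξ ∈ LinearMap.range (lin T)) :
    ∀ m ∈ M, G.hat ξ *ᵥ m ∈ M := by
  obtain ⟨z, rfl⟩ := hξ
  intro m hm
  induction z using Finsupp.induction_linear with
  | zero => simp [Grp.hat]
  | add z z' hz hz' =>
    rw [map_add, hat_add, add_mulVec]
    exact M.add_mem hz hz'
  | single p a =>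
    rw [lin, Finsupp.linearCombination_single, c_smul, hat_smul, smul_mulVec, ← c_smul]
    exact M.smul_mem a (h.lie p m hm)

end Ring

variable {E : Ell} {F : Type} [Field F] [Algebra ℂ F]

theorem reg_trace {N : ℕ} (hN : 0 < N) {M : Submodule F (Fin N → Ls F)}
    (hr : ∀ w : Ls F, E.Reg w → ∀ m ∈ M, w • m ∈ M)
    (hv : ∀ m : Fin N → Fin N → Ls F, (∀ i, m i ∈ M) → E.Reg (of m).det)
    (hs : ∃ s : Fin N → Fin N → Ls F, (∀ i, s i ∈ M) ∧ (of s).det ≠ 0)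
    {φ : Matrix (Fin N) (Fin N) (Ls F)} (hφ : ∀ m ∈ M, φ *ᵥ m ∈ M) : E.Reg (trace φ) := by
  let S : Set (Ls F) := {d | ∃ m : Fin N → Fin N → Ls F, (∀ i, m i ∈ M) ∧ (of m).det = d}
  have upd : ∀ (m : Fin N → Fin N → Ls F) (i : Fin N) (v : Fin N → Ls F), (∀ i, m i ∈ M) → v ∈ M →
      ((of m).updateRow i v).det ∈ Submodule.span F S := fun m i v hm hv =>
    Submodule.subset_span ⟨Function.update m i v, fun j => by
      by_cases h : j = i
      · rw [h, Function.update_self]; exact hv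
      · rw [Function.update_of_ne h]; exact hm j, rfl⟩
  have ind : ∀ z : Ls F, (∀ d ∈ S, z * d ∈ Submodule.span F S) →
      ∀ d ∈ Submodule.span F S, z * d ∈ Submodule.span F S := fun z hz d hd => by
    induction hd using Submodule.span_induction with
    | mem d hd => exact hz d hd
    | zero => simp
    | add d d' _ _ h h' => rw [mul_add]; exact Submodule.add_mem _ h h'
    | smul c d _ h =>
      rw [← HahnSeries.C_mul_eq_smul, mul_left_comm, HahnSeries.C_mul_eq_smul]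
      exact Submodule.smul_mem _ c h
  refine reg_of_mul (Submodule.span F S) ?_ (fun r h => ind r ?_) ⟨1, fun d hd => ?_⟩ (ind _ ?_)
  · obtain ⟨s, h1, h2⟩ := hs
    exact (Submodule.ne_bot_iff _).2 ⟨_, Submodule.subset_span ⟨s, h1, rfl⟩, h2⟩
  · rintro _ ⟨m, hm, rfl⟩
    have := upd m ⟨0, hN⟩ _ hm (hr r h _ (hm ⟨0, hN⟩))
    rw [det_updateRow_smul] at this
    exact (congrArg (fun z : Matrix (Fin N) (Fin N) (Ls F) => r * z.det ∈ Submodule.span F S)
      (updateRow_eq_self (of m) ⟨0, hN⟩)).mp this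
  · refine reg_eq_zero (E := E) ?_
    induction hd using Submodule.span_induction with
    | mem d hd => obtain ⟨m, hm, rfl⟩ := hd; exact hv m hm
    | zero => exact reg_zero
    | add d d' _ _ h h' => exact reg_add h h'
    | smul c d _ h => exact reg_smul c h
  · rintro _ ⟨m, hm, rfl⟩
    rw [← trace_transpose, ← sum_det_update]
    refine Submodule.sum_mem _ fun i _ => upd m i _ hm ?_
    have e : (of m * φᵀ) i = φ *ᵥ m i :=
      funext fun j => by simp [Matrix.mul_apply, mulVec, dotProduct, mul_comm]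
    rw [e]
    exact hφ _ (hm i)

variable {G : Grp} {M : Submodule F (Fin G.N → Ls F)} {T : ℕ × Fin 3 → Fin 3 → Ls F}

theorem grp_pos (hG : G = SL2 ∨ G = SO3) : 0 < G.N ∧ G.F.det ≠ 0 := by
  rcases hG with rfl | rfl
  · exact ⟨Nat.two_pos, (det_fin_two_of (0 : ℂ) 1 (-1) 0).symm ▸ (by norm_num)⟩
  · exact ⟨Nat.succ_pos 2, (det_one (n := Fin 3) (R := ℂ)).trans_ne one_ne_zero⟩

theorem IsOb.dual (hG : G = SL2 ∨ G = SO3) (h : IsOb E G M T) :
    (∀ u, (∀ m ∈ M, E.Reg (u ⬝ᵥ cst F G.F *ᵥ m)) → u ∈ M) ∧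
    (M ⊓ On G.N F 1 = ⊥ → M ⊔ On G.N F (-1) = ⊤) ∧
    (∃ s : Fin G.N → Fin G.N → Ls F, LinearIndependent F s ∧ ∀ i, s i ∈ M ⊓ On G.N F (-1)) ∧
    ∃ s : Fin G.N → Fin G.N → Ls F, (∀ i, s i ∈ M) ∧ (of s).det ≠ 0 := by
  obtain ⟨l, hl⟩ := exists_res E F
  obtain ⟨v, h1, h2⟩ := h.adm
  obtain ⟨h3, h4, h5, -, h6⟩ := P286ER3.dual F G.N G.F (grp_pos hG).2 l hl.2 v M h1 h2
    fun m hm m' hm' => hl.1 _ (h.form m hm m' hm')
  exact ⟨fun u hu => h3 u fun m hm => hl.1 _ (hu m hm), h4, h5, h6⟩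

theorem IsOb.reg_dot (hG : G = SL2 ∨ G = SO3) (h : IsOb E G M T) {ξ η : Fin 3 → Ls F}
    (hξ : ∀ m ∈ M, G.hat ξ *ᵥ m ∈ M) (hη : ∀ m ∈ M, G.hat η *ᵥ m ∈ M) : E.Reg (ξ ⬝ᵥ η) := by
  have h1 := reg_trace (grp_pos hG).1 h.reg h.vol (h.dual hG).2.2.2 (φ := G.hat ξ * G.hat η)
    fun m hm => by rw [← mulVec_mulVec]; exact hξ _ (hη m hm)
  rw [trace_hat hG] at h1
  have h2 := reg_mul (reg_C (algebraMap ℂ F 2⁻¹)) h1
  rwa [← mul_assoc, ← map_ofNat (HahnSeries.C : F →+* Ls F) 2, ← map_ofNat (algebraMap ℂ F) 2,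
    ← map_mul, ← map_mul, inv_mul_cancel₀ two_ne_zero, map_one, map_one, one_mul] at h2

theorem IsOb.dualT (hG : G = SL2 ∨ G = SO3) (h : IsOb E G M T) :
    (∀ u, (∀ ξ ∈ LinearMap.range (lin T), E.Reg (u ⬝ᵥ ξ)) → u ∈ LinearMap.range (lin T)) ∧
    ∃ s : Fin 3 → Fin 3 → Ls F, (∀ i, s i ∈ LinearMap.range (lin T)) ∧ (of s).det ≠ 0 := by
  obtain ⟨l, hl⟩ := exists_res E F
  obtain ⟨h3, -, -, -, h6⟩ := P286ER3.dual F 3 1 (by simp) l hl.2 T _ h.admT rfl
    fun m hm m' hm' => by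
      rw [cst_one, one_mulVec]
      exact hl.1 _ (h.reg_dot hG (h.hat_mem hm) (h.hat_mem hm'))
  exact ⟨fun u hu => h3 u fun m hm => by rw [cst_one, one_mulVec]; exact hl.1 _ (hu m hm), h6⟩

theorem stab : STAB := fun _ _ hG _ _ _ _ _ h _ hξ =>
  (h.dualT hG).1 _ fun _ hη => h.reg_dot hG hξ (h.hat_mem hη)

theorem IsOb.sd (hG : G = SL2 ∨ G = SO3) (h : IsOb E G M T) :
    SD E (LinearMap.range (lin T)) where
  reg r hr ξ hξ := stab E G hG F M T h _ fun m hm => by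
    rw [hat_smul, smul_mulVec]
    exact h.reg r hr _ (h.hat_mem hξ m hm)
  dot _ hξ _ hη := h.reg_dot hG (h.hat_mem hξ) (h.hat_mem hη)
  dual := (h.dualT hG).1
  cross ξ hξ η hη := stab E G hG F M T h _ fun m hm => by
    obtain ⟨c, hc⟩ := comm_hat (A := F) hG
    rw [hc, smul_mulVec, ← c_smul, sub_mulVec, ← mulVec_mulVec, ← mulVec_mulVec]
    exact M.smul_mem _ (M.sub_mem (h.hat_mem hξ _ (h.hat_mem hη m hm))
      (h.hat_mem hη _ (h.hat_mem hξ m hm)))
  span := (h.dualT hG).2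

end

end Vale.Agent.P286ER
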