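import Vale.Agent.P286ER.Fld2
import Vale.Agent.P286EB.IF
import Vale.Agent.P286EF.Loc
import Vale.Agent.P286ER5.Killc
import Vale.Agent.P286ER6.Unst
import Vale.Agent.P286ER2.Weight
import Vale.Agent.P286ER4.Onep
import Vale.Agent.P286.H295.Red

/-!
# The coefficients of the function `Θ` of a test object
-/

namespace Vale.Agent.P286ER

open Matrix Vale.Agent.P286 Vale.Agent.P286E Vale.Agent.P286EB

noncomputable section

attribute [-instance] HahnSeries.powerSeriesAlgebra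

section Coeff

variable (E : Ell)

theorem y_coeff : E.y.coeff (-2) = 0 ∧ E.y.coeff (-1) = 0 ∧ E.y.coeff 0 = 0 := by
  obtain ⟨z, hz⟩ : ∃ z, z = E.y - HahnSeries.single (-3) 1 := ⟨_, rfl⟩
  have hy : E.y = HahnSeries.single (-3) 1 + z := by rw [hz, add_sub_cancel]
  have o2 : Ord (-2) z := hz ▸ ord_succ (n := -3) (ord_sub (ord_y E) (ord_single _ _))
    (by simp [E.lead])
  have e : HahnSeries.single (-3) 2 * z = E.a • xs ℂ + E.b • 1 - z * z := by
    have h := E.eqn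
    have h3 : (HahnSeries.single (-3) 1 : Ls ℂ) ^ 2 = xs ℂ ^ 3 := by
      rw [xs, HahnSeries.single_pow, HahnSeries.single_pow]
      simp
    have h2 : (HahnSeries.single (-3) 2 : Ls ℂ) = 2 * HahnSeries.single (-3) 1 := by
      rw [two_mul, ← HahnSeries.single_add, one_add_one_eq_two]
    rw [hy] at h
    rw [h2]
    linear_combination h - h3
  have step : ∀ n : ℤ, n ≤ 0 → -2 ≤ n → Ord n z → Ord (n + 1) z := fun n h1 h2 h => by
    refine ord_succ h ?_
    have h3 := coeff_mul_lead (ord_single (A := ℂ) (-3) 2) h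
    have h4 : Ord (-2) (E.a • xs ℂ + E.b • (1 : Ls ℂ)) :=
      ord_add (ord_smul _ (ord_single _ _)) (ord_smul _ (ord_mono ord_one (by omega)))
    rw [e, HahnSeries.coeff_sub, h4 _ (by omega), ord_mul h h _ (by omega), sub_zero,
      HahnSeries.coeff_single_same] at h3
    exact (mul_eq_zero.1 h3.symm).resolve_left two_ne_zero
  have o1 := step _ (by omega) (by omega) (step _ (by omega) (by omega)
    (step _ (by omega) (by omega) o2))
  have key : ∀ k : ℤ, -3 < k → k < 1 → E.y.coeff k = 0 := fun k h h' => by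
    rw [hy, HahnSeries.coeff_add, HahnSeries.coeff_single_of_ne h.ne', o1 k (by omega), add_zero]
  exact ⟨key _ (by omega) (by omega), key _ (by omega) (by omega), key _ (by omega) (by omega)⟩

variable {E} {A : Type} [CommRing A] [Algebra ℂ A]

/-- The functions with a pole of order at most three. -/
theorem reg_h3 {r : Ls A} (hr : E.Reg r) (h : Ord (-3) r) :
    r = HahnSeries.C (r.coeff 0) + r.coeff (-2) • xs A + r.coeff (-3) • ys E A := by
  have y2 : (ys E A).coeff (-2) = 0 := by rw [ys, lm_coeff, (y_coeff E).1, map_zero]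
  have y0 : (ys E A).coeff 0 = 0 := by rw [ys, lm_coeff, (y_coeff E).2.2, map_zero]
  have o2 : Ord (-2) (r - r.coeff (-3) • ys E A) :=
    ord_succ (n := -3) (ord_sub h (ord_smul _ (ord_ys E))) (by simp [ys_lead])
  have o1 : Ord (-1) (r - r.coeff (-3) • ys E A - r.coeff (-2) • xs A) :=
    ord_succ (n := -2) (ord_sub o2 (ord_smul _ (ord_single _ _))) (by simp [y2])
  have h1 := reg_h0 (reg_sub (reg_sub hr (reg_smul _ reg_y)) (reg_smul _ reg_x)) o1
  have h2 : (r - r.coeff (-3) • ys E A - r.coeff (-2) • xs A).coeff 0 = r.coeff 0 := by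
    simp [y0, xs]
  rw [h2] at h1
  rw [← h1]
  abel

end Coeff

/-- For a semistable lattice `Θ` does not vanish. -/
theorem th_ne_of_sst {F : Type} [Field F] {N : ℕ} {v : ℕ × Fin N → Fin N → Ls F}
    (hv : FinRank (pol N F ∘ₗ lin v - 1)) (h : Sst (LinearMap.range (lin v))) : Th v ≠ 0 := by
  obtain ⟨h1, s, h2, h3⟩ := h
  have l0 : ∀ u, lv N (Ls F) u ∈ LinearMap.range (tk v) := fun u => by
    obtain ⟨c, rfl⟩ := Matrix.vecMul_surjective_iff_isUnit.2
      ((Matrix.isUnit_iff_isUnit_det (of s)).2 (IsUnit.mk0 _ h3)) u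
    change lv N (Ls F) (c ᵥ* of s) ∈ _
    rw [vecMul_eq_sum, map_sum]
    refine Submodule.sum_mem _ fun i _ => ?_
    rw [map_smul]
    refine Submodule.smul_mem _ _ ?_
    obtain ⟨z, hz⟩ := (h2 i).1
    exact ⟨cq z, by rw [tk_cq, hz, ex_of_ord (h2 i).2]; rfl⟩
  have l1 : ∀ p, Finsupp.single p (1 : Ls F) ∈ LinearMap.range (tk v) := fun p => by
    obtain ⟨_, ⟨z, rfl⟩, o, ho, e⟩ := Submodule.mem_sup.1 (h1 ▸ Submodule.mem_top (x := std N F p))
    have e1 := ex_add (lin v z) o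
    rw [e, ← tk_cq, ex_of_ord ho, ← lv_add_hi (ex (std N F p)), hi_ex, pol_std, cq,
      Finsupp.mapRange_single, map_one] at e1
    rw [← lv_add_hi (Finsupp.single p (1 : Ls F)), eq_sub_of_add_eq' e1]
    exact Submodule.add_mem _ (l0 _)
      (Submodule.sub_mem _ (Submodule.add_mem _ ⟨_, rfl⟩ (l0 _)) (l0 _))
  refine (isUnit_fdet (tk_fin hv) (isUnit_of_surj (tk_fin hv) fun y => ?_)).ne_zero
  change y ∈ LinearMap.range (tk v)
  induction y using Finsupp.induction_linear with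
  | zero => exact Submodule.zero_mem _
  | add y y' h h' => exact Submodule.add_mem _ h h'
  | single p c =>
    rw [← mul_one c, ← smul_eq_mul, ← Finsupp.smul_single]
    exact Submodule.smul_mem _ _ (l1 p)

/-- The functions `Θ` of two admissible bases of a lattice differ by a unit. -/
theorem th_chg {A : Type} [CommRing A] {N : ℕ} {v w : ℕ × Fin N → Fin N → Ls A} (hv : Adm v)
    (hw : Adm w) (h : LinearMap.range (lin v) ≤ LinearMap.range (lin w)) :
    Th v = fdet (chg w v) • Th w := by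
  rw [← Th_comp hw.1 (hv.finRank_chg hw h), hw.lin_chg h]
  exact congrArg Th (funext fun p => (lin_single v p).symm)

variable {E : Ell} {G : Grp}

/-- The chosen admissible basis. -/
def bas (X : Ob E G) : ℕ × Fin G.N → Fin G.N → Ls X.A.R := X.adm.choose

theorem bas_adm (X : Ob E G) : Adm (bas X) := X.adm.choose_spec.1

theorem bas_range (X : Ob E G) : LinearMap.range (lin (bas X)) = X.M := X.adm.choose_spec.2

/-- The function `Θ` of a test object. -/
def Th0 (X : Ob E G) : Ls X.A.R := Th (bas X)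

theorem Th0_reg (X : Ob E G) : E.Reg (Th0 X) :=
  Th_mem (bas_adm X).1 (regS E X.A.R) fun m hm => X.vol m fun i => bas_range X ▸ hm i

theorem grp_le (hG : G = SL2 ∨ G = SO3) : G.N ≤ 3 := by
  rcases hG with rfl | rfl
  · exact Nat.le_succ 2
  · exact le_rfl

theorem Th0_ord (X : Ob E G) : Ord (-G.N) (Th0 X) := Th_ord (bas_adm X).1

/-- Any admissible basis computes `Θ` up to a unit. -/
theorem Th0_eq (X : Ob E G) {v : ℕ × Fin G.N → Fin G.N → Ls X.A.R} (hv : Adm v)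
    (h : LinearMap.range (lin v) = X.M) : ∃ u : X.A.Rˣ, Th v = (u : X.A.R) • Th0 X := by
  have h' := (h.trans (bas_range X).symm).le
  exact ⟨(hv.isUnit_fdet_chg (bas_adm X) h').unit, th_chg hv (bas_adm X) h'⟩

theorem Th0_map (hG : G.Ok) {X Y : Ob E G} (φ : Mo X Y) :
    ∃ u : Y.A.Rˣ, lm φ.f.r (Th0 X) = (u : Y.A.R) • Th0 Y := by
  have h1 := (bas_adm X).bc φ.f.r
  obtain ⟨u, hu⟩ := Th0_eq Y (h1.gau φ.intM φ.intM.adjugate φ.inG.mul_adj φ.inG.adj_mul) (by
    rw [range_gau φ.intM φ.intM.adjugate φ.inG.adj_mul, ← bcM_range, bas_range, φ.M_eq hG])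
  refine ⟨u, ?_⟩
  rw [← hu, Th0, ← Th_lm _ (bas_adm X).1]
  exact (Th_act φ.intM φ.intM.adjugate φ.inG.mul_adj φ.det h1.1).symm

/-- The equation of the chart `a`: the coefficient of `x`. -/
def fa (X : Ob E G) : X.A.R := eqn E .a (Th0 X)

/-- The equation of the chart `b`. -/
def fb (X : Ob E G) : X.A.R := eqn E .b (Th0 X)

/-- The coefficient of `y`. -/
def fc (X : Ob E G) : X.A.R := (Th0 X).coeff (-3)

theorem Th0_exp (hG : G = SL2 ∨ G = SO3) (X : Ob E G) :
    Th0 X = HahnSeries.C ((Th0 X).coeff 0) + fa X • xs X.A.R + fc X • ys E X.A.R :=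
  reg_h3 (Th0_reg X) (ord_mono (Th0_ord X) (by have := grp_le hG; omega))

theorem fc_sl2 (X : Ob E SL2) : fc X = 0 :=
  Th0_ord X _ (by change (-3 : ℤ) < -((2 : ℕ) : ℤ); omega)

theorem eqn_smul {A : Type} [CommRing A] [Algebra ℂ A] (i : P286ET.Ix) (u : Aˣ) (θ : Ls A) :
    ∃ w : Aˣ, eqn E i ((u : A) • θ) = w * eqn E i θ := by
  cases i
  · exact ⟨u, rfl⟩
  · refine ⟨u ^ 3, ?_⟩
    simp only [eqn, fh, HahnSeries.coeff_smul, smul_eq_mul, Units.val_pow_eq_pow_val]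
    ring
  · refine ⟨u ^ 4, ?_⟩
    simp only [eqn, fh, HahnSeries.coeff_smul, smul_eq_mul, Units.val_pow_eq_pow_val]
    ring

theorem eqn_lm {A B : Type} [CommRing A] [Algebra ℂ A] [CommRing B] [Algebra ℂ B] (f : A →ₐ[ℂ] B)
    (i : P286ET.Ix) (θ : Ls A) : eqn E i (lm (f : A →+* B) θ) = f (eqn E i θ) := by
  cases i <;> simp [eqn, fh, lm_coeff]

theorem eqn_map (hG : G.Ok) {X Y : Ob E G} (φ : Mo X Y) (i : P286ET.Ix) :
    ∃ u : Y.A.Rˣ, φ.f (eqn E i (Th0 X)) = u * eqn E i (Th0 Y) := by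
  obtain ⟨u, hu⟩ := Th0_map hG φ
  obtain ⟨w, hw⟩ := eqn_smul (E := E) i u (Th0 Y)
  exact ⟨w, by rw [← hw, ← hu, eqn_lm]⟩

theorem isFn_fa (hG : G.Ok) (c : ℂ) : P286EO.IsFn (DE E G c) fa := fun _ _ φ => eqn_map hG φ .a

theorem isFn_fb (hG : G.Ok) (c : ℂ) : P286EO.IsFn (DE E G c) fb := fun _ _ φ => eqn_map hG φ .b

theorem isFn_fc (hG : G.Ok) (c : ℂ) : P286EO.IsFn (DE E G c) fc := fun _ _ φ =>
  (Th0_map hG φ).imp fun _ h => congrArg (fun z : Ls _ => z.coeff (-3)) h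

/-- The equation of a chart may be computed with any admissible basis. -/
theorem eqn_unit_iff (X : Ob E G) {v : ℕ × Fin G.N → Fin G.N → Ls X.A.R} (hv : Adm v)
    (h : LinearMap.range (lin v) = X.M) (i : P286ET.Ix) :
    IsUnit (eqn E i (Th v)) ↔ IsUnit (eqn E i (Th0 X)) := by
  obtain ⟨u, hu⟩ := Th0_eq X hv h
  obtain ⟨w, hw⟩ := eqn_smul (E := E) i u (Th0 X)
  rw [hu, hw, Units.isUnit_units_mul]

theorem th_eq (i : P286ET.Ix) (c : ℂ) (X : Ob E G) :
    P286EO.th (T := DE E G c) fa fb i X = eqn E i (Th0 X) := by cases i <;> rfl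

/-- The common zeros of the three equations are unstable. -/
theorem not_sst (hG : G = SL2 ∨ G = SO3) (X : Ob E G) {F : Type} [Field F] (π : X.A.R →+* F)
    (h1 : π (fa X) = 0) (h2 : π (fb X) = 0) (h3 : π (fc X) = 0) : ¬ Sst (bcM π X.M) := fun h => by
  have h0 : π ((Th0 X).coeff 0) = 0 := by
    have h1' : π ((Th0 X).coeff (-2)) = 0 := h1
    simp only [fb, eqn, fh, map_add, map_sub, map_mul, map_pow, h1'] at h2
    simpa using h2
  rw [← bas_range, bcM_range] at h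
  refine th_ne_of_sst ((bas_adm X).bc π).1 h ?_
  rw [Th_lm _ (bas_adm X).1]
  change lm π (Th0 X) = 0
  rw [Th0_exp hG, map_add, map_add, lm_C, lm_smul, lm_smul, h0, h1, h3, map_zero, zero_smul,
    zero_smul, add_zero, add_zero]

theorem nonres {c : ℂ} (hc : ∀ q : ℚ, c ≠ (q : ℂ)) (m : ℤ) (hm : m ≠ 0) (k : ℤ) :
    (k : ℂ) + (2 - c) / (2 * 2) * m ≠ 0 := fun h => hc (2 + 4 * k / m) (by
  have hm' : (m : ℂ) ≠ 0 := by exact_mod_cast hm
  push_cast
  field_simp at h ⊢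
  linear_combination -h)

theorem unst : UNST := P286ER6.unst fld P286ER2.weight P286ER4.onep

/-- There is no cartesian family supported on the unstable locus. -/
theorem kill (hG : G = SL2 ∨ G = SO3) {c : ℂ} (hc : ∀ q : ℚ, c ≠ (q : ℂ)) :
    P286EO.Kill (DE E G c) fun X => (IsUnit (fa X) ∨ IsUnit (fb X)) ∨ IsUnit (fc X) := by
  have ok := Grp.ok_of hG
  let θ : Fin 3 → ∀ X : Ob E G, X.A.R := fun i X => ![fa X, fb X, fc X] i
  have h1 : ∀ i, P286EO.IsFn (DE E G c) (θ i) := fun i => by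
    fin_cases i
    exacts [isFn_fa ok c, isFn_fb ok c, isFn_fc ok c]
  have h2 : ∀ (X : Ob E G) (p : Ideal X.A.R), p.IsPrime → (∀ i, θ i X ∈ p) →
      Bad (DE E G c) X p := fun X p hp h => unst E G hG c X p hp fun F _ _ π hπ =>
    not_sst hG X (π : X.A.R →+* F) ((hπ _).2 (h 0)) ((hπ _).2 (h 1)) ((hπ _).2 (h 2))
  refine (P286ER5.killc' (DE E G c) (Fin 3) θ (good_DE ok c) (locs ok E c) h1 (nonres hc)
    h2).mono ?_
  rintro X ⟨i, hi⟩
  fin_cases i
  exacts [Or.inl (Or.inl hi), Or.inl (Or.inr hi), Or.inr hi]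

/-- The case of `SL_2`. -/
theorem kill_sl2 {c : ℂ} (hc : ∀ q : ℚ, c ≠ (q : ℂ)) :
    P286EO.Kill (DE E SL2 c) fun X => IsUnit (fa X) ∨ IsUnit (fb X) :=
  (kill (Or.inl rfl) hc).mono fun X h => h.elim id fun h => Or.inl (by
    have : Subsingleton (Ob.A X).R := subsingleton_of_zero_eq_one
      (isUnit_zero_iff.1 (fc_sl2 X ▸ h))
    exact isUnit_of_subsingleton _)

/-- `Bun_{SL_2}` and the diagram of its two semistable charts. -/
theorem open_sl2 (h : P286EO.OPEN2) {c : ℂ} (hc : ∀ q : ℚ, c ≠ (q : ℂ)) :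
    EQV (WD.st (DE E SL2 c)) (WD.st (P286EO.GS (DE E SL2 c) fa fb)) :=
  h _ _ _ (good_DE ok_SL2 c) (fun _ => rfl) (locs ok_SL2 E c) (isFn_fa ok_SL2 c) (isFn_fb ok_SL2 c)
    (kill_sl2 hc)

theorem smAlg_reduced (A : SmAlg) : IsReduced A.R := H295.isReduced_of_smooth ℂ A.R

/-- The leading coefficient of `Θ` is a unit if and only if the bundle has no cohomology. -/
theorem lead_unit_iff (X : Ob E G) : IsUnit ((Th0 X).coeff (-G.N)) ↔
    IsCompl X.M (LinearMap.ker (pol G.N X.A.R)) := by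
  rw [Th0, Th_lead (bas_adm X).1, (bas_adm X).isUnit_iff, bas_range]

theorem fc_unit_iff (X : Ob E SO3) : IsUnit (fc X) ↔
    IsCompl X.M (LinearMap.ker (pol SO3.N X.A.R)) := lead_unit_iff X

theorem fa_unit_iff (X : Ob E SL2) : IsUnit (fa X) ↔
    IsCompl X.M (LinearMap.ker (pol SL2.N X.A.R)) := lead_unit_iff X

theorem disj (hD : DISJ) (X : Ob E SO3) (h : IsUnit (fa X) ∨ IsUnit (fb X)) (h' : IsUnit (fc X)) :
    Subsingleton X.A.R := by
  have := smAlg_reduced X.A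
  obtain ⟨u, hu⟩ := h'
  obtain ⟨h1, h2⟩ := hD E X.A.R (bas X) X.M (bas_adm X) (bas_range X) (fun m hm m' hm' =>
    (congrArg (fun z : Fin 3 → Ls X.A.R => E.Reg (m ⬝ᵥ z)) ((congrArg (· *ᵥ m')
      (cst_one (A := X.A.R) 3)).trans (one_mulVec m'))).mp (X.form m hm m' hm')) X.vol
    ((u⁻¹ : X.A.Rˣ).1 • HahnSeries.coeff.linearMap (-3)) (by
      change (u⁻¹ : X.A.Rˣ).1 * fc X = 1
      rw [← hu, Units.inv_mul])
  have h3 : (Th0 X).coeff 0 = 0 := (Units.mul_left_eq_zero u).1 (hu ▸ h1)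
  have h4 : (Th0 X).coeff (-2) = 0 := (Units.mul_left_eq_zero u).1 (hu ▸ h2)
  refine subsingleton_of_zero_eq_one (isUnit_zero_iff.1 ?_)
  rcases h with h | h
  · exact h4 ▸ h
  · simpa [fb, eqn, fh, h3, h4] using h

/-- `Bun_{SO_3}`, the diagram of the two even charts and the odd chart. -/
theorem open_so3 (h : P286EO.OPEN3) (hD : DISJ) {c : ℂ} (hc : ∀ q : ℚ, c ≠ (q : ℂ)) :
    EQV (WD.st (DE E SO3 c)) ((WD.st (P286EO.GS (DE E SO3 c) fa fb)).prod
      (WD.st (P286EO.Opn (DE E SO3 c) fc))) :=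
  h _ _ _ _ (good_DE ok_SO3 c) (fun _ => rfl) (locs ok_SO3 E c) (isFn_fa ok_SO3 c)
    (isFn_fb ok_SO3 c) (isFn_fc ok_SO3 c) (disj hD) (kill (Or.inr rfl) hc)

end

end Vale.Agent.P286ER
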