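import Vale.Agent.P286ER.Fld

/-!
# Unstable bundles over a field: the destabilising line
-/

namespace Vale.Agent.P286ER

open Matrix Vale.Agent.P286 Vale.Agent.P286E

noncomputable section

attribute [-instance] HahnSeries.powerSeriesAlgebra

variable {E : Ell} {F : Type} [Field F] [Algebra ℂ F]

omit [Algebra ℂ F] in
theorem single_on {N : ℕ} (j : Fin N) : (Pi.single j 1 : Fin N → Ls F) ∈ On N F 0 := fun i => by
  by_cases h : i = j
  · rw [h, Pi.single_eq_same]; exact ord_one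
  · rw [Pi.single_eq_of_ne h]; exact ord_zero _

omit [Algebra ℂ F] in
theorem pos_line {N : ℕ} {M : Submodule F (Fin N → Ls F)} {n s s' : Fin N → Ls F} {j : Fin N}
    (hs : s ∈ M ⊓ On N F (-1)) (hs' : s' ∈ M ⊓ On N F (-1)) (e : s = s j • n)
    (e' : s' = s' j • n) (hi : ∀ a b : F, a • s + b • s' = 0 → a = 0 ∧ b = 0) :
    Pos fun k : Ls F => k • n ∈ M := by
  have key : ∀ a b : F, (a • s j + b • s' j) • n = a • s + b • s' := fun a b => by
    conv_rhs => rw [e, e', c_smul, c_smul, smul_smul, smul_smul, ← add_smul,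
      HahnSeries.C_mul_eq_smul, HahnSeries.C_mul_eq_smul]
  refine pos_of_pair (fun a b => ?_) (hs.2 j) (hs'.2 j) fun a b h => hi a b ?_
  · rw [key]
    exact M.add_mem (M.smul_mem a hs.1) (M.smul_mem b hs'.1)
  · rw [← key, h, zero_smul]

/-- The destabilising line for `SL_2`. -/
theorem line_sl2 {M : Submodule F (Fin 2 → Ls F)}
    (h1 : M ⊓ On 2 F 1 = ⊥ → M ⊔ On 2 F (-1) = ⊤)
    (h2 : ∃ s : Fin 2 → Fin 2 → Ls F, LinearIndependent F s ∧ ∀ i, s i ∈ M ⊓ On 2 F (-1))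
    (hM : ¬ Sst M) : ∃ (j : Fin 2) (n : Fin 2 → Ls F), n ∈ On 2 F 0 ∧ n j = 1 ∧
      Pos fun k : Ls F => k • n ∈ M := by
  by_cases h : M ⊓ On 2 F 1 = ⊥
  · obtain ⟨s, hs, hs'⟩ := h2
    have hd : (of s).det = 0 := by
      by_contra hd
      exact hM ⟨h1 h, s, hs', hd⟩
    obtain ⟨j, n, h3, h4, h5, h6⟩ := exists_prim (hs.ne_zero 0)
    refine ⟨j, n, h3, h4, pos_line (j := j) (hs' 0) (hs' 1) h6 ?_ fun a b hab => ?_⟩
    · rw [det_fin_two, of_apply, of_apply, of_apply, of_apply] at hd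
      have e0 := congrFun h6 0
      have e1 := congrFun h6 1
      rw [Pi.smul_apply, smul_eq_mul] at e0 e1
      have hd' : n 0 * s 1 1 - n 1 * s 1 0 = 0 := mul_left_cancel₀ h5 (by
        linear_combination hd - s 1 1 * e0 + s 1 0 * e1)
      funext i
      rw [Pi.smul_apply, smul_eq_mul]
      fin_cases i <;> fin_cases j <;> simp only [Fin.zero_eta, Fin.mk_one] at h4 ⊢
      · rw [h4, mul_one]
      · linear_combination -hd' - s 1 0 * h4
      · linear_combination hd' - s 1 1 * h4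
      · rw [h4, mul_one]
    · have := Fintype.linearIndependent_iff.1 hs ![a, b] (by simpa [Fin.sum_univ_two] using hab)
      exact ⟨this 0, this 1⟩
  · obtain ⟨s, hs, hs'⟩ := (Submodule.ne_bot_iff _).1 h
    obtain ⟨j, n, h3, h4, h5, h6⟩ := exists_prim hs'
    exact ⟨j, n, h3, h4, Or.inl ⟨s j, (congrArg (· ∈ _) h6).mp hs.1, h5, hs.2 j⟩⟩

theorem hat2_sq (k k' : Ls F) (l m : Fin 2 → Ls F) :
    (((k' • l) 0 * m 1 - (k' • l) 1 * m 0) + ((k' • l) 0 * m 1 - (k' • l) 1 * m 0)) • k • l =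
      hat2 ((k * k') • ![l 0 * l 0 - l 1 * l 1, ii F * (l 0 * l 0 + l 1 * l 1),
        -(l 0 * l 1 + l 0 * l 1)]) *ᵥ m := by
  funext i
  fin_cases i <;> simp [hat2, mulVec, dotProduct, Fin.sum_univ_two]
  · linear_combination (k * k' * (l 0 * l 0 + l 1 * l 1) * m 1) * ii_sq (A := F)
  · linear_combination (-(k * k' * (l 0 * l 0 + l 1 * l 1) * m 0)) * ii_sq (A := F)

theorem fld_sl2 {M : Submodule F (Fin 2 → Ls F)} {T : ℕ × Fin 3 → Fin 3 → Ls F}
    (h : IsOb E SL2 M T) (hM : ¬ Sst M) : Split (LinearMap.range (lin T)) := by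
  obtain ⟨j, l, h1, h2, h3⟩ := line_sl2 (h.dual (Or.inl rfl)).2.1 (h.dual (Or.inl rfl)).2.2.1 hM
  have oi : Ord 0 (ii F) := ord_C _
  obtain ⟨c, hc, oc⟩ : ∃ c : Ls F, c * 2 = 1 ∧ Ord 0 c := ⟨HahnSeries.C (algebraMap ℂ F 2⁻¹), by
    rw [← map_ofNat (HahnSeries.C : F →+* Ls F) 2, ← map_ofNat (algebraMap ℂ F) 2,
      ← map_mul, ← map_mul, inv_mul_cancel₀ two_ne_zero, map_one, map_one], ord_C _⟩
  have hn : ![l 0 * l 0 - l 1 * l 1, ii F * (l 0 * l 0 + l 1 * l 1), -(l 0 * l 1 + l 0 * l 1)] ∈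
      On 3 F 0 := fun i => by
    fin_cases i
    · exact ord_sub (ord_mul (h1 0) (h1 0)) (ord_mul (h1 1) (h1 1))
    · exact ord_mul oi (ord_add (ord_mul (h1 0) (h1 0)) (ord_mul (h1 1) (h1 1)))
    · exact ord_neg (ord_add (ord_mul (h1 0) (h1 1)) (ord_mul (h1 0) (h1 1)))
  have hw : ![if j = 0 then c else -c, -(ii F * c), 0] ∈ On 3 F 0 := fun i => by
    fin_cases i
    · change Ord 0 (ite _ _ _)
      split_ifs
      exacts [oc, ord_neg oc]
    · exact ord_neg (ord_mul oi oc)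
    · exact ord_zero _
  refine (h.sd (Or.inl rfl)).split hn hw ?_ ?_ (h3.sq fun k k' hk hk' => ?_)
  · fin_cases j <;> simp only [Fin.zero_eta, Fin.mk_one] at h2 <;>
      simp [dotProduct, Fin.sum_univ_three, h2]
    · linear_combination hc - c * (1 + l 1 * l 1) * ii_sq (A := F)
    · linear_combination hc - c * (1 + l 0 * l 0) * ii_sq (A := F)
  · simp [dotProduct, Fin.sum_univ_three]
    linear_combination (l 0 * l 0 + l 1 * l 1) ^ 2 * ii_sq (A := F)
  · refine stab E SL2 (Or.inl rfl) F M T h _ fun m hm => ?_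
    have h4 := h.form _ hk' m hm
    have h5 := h.reg _ (reg_add h4 h4) _ hk
    rw [sl2_hat]
    exact (congrArg (· ∈ M) ((congrArg (fun z : Ls F => (z + z) • k • l)
      (form_sl2 (k' • l) m)).trans (hat2_sq k k' l m))).mp h5

/-- The destabilising line for `SO_3`, from three sections in a plane. -/
theorem split_plane {N : Submodule F (Fin 3 → Ls F)} (hN : SD E N)
    (hd : ∀ s : Fin 3 → Fin 3 → Ls F, (∀ i, s i ∈ N ⊓ On 3 F (-1)) → (of s).det = 0)
    {ν ξ s s' : Fin 3 → Ls F} {j : Fin 3} (hν : ν ∈ On 3 F 0) (hj : ν j = 1)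
    (hξ : ξ ∈ N ⊓ On 3 F 0) (hs : s ∈ N ⊓ On 3 F (-1)) (hs' : s' ∈ N ⊓ On 3 F (-1))
    (o : ξ ⬝ᵥ ν = 0) (o1 : s ⬝ᵥ ν = 0) (o2 : s' ⬝ᵥ ν = 0)
    (hi : ∀ e a b : F, e • ξ + a • s + b • s' = 0 → e = 0 ∧ a = 0 ∧ b = 0) : Split N := by
  have hξ' : ξ ∈ N ⊓ On 3 F (-1) := ⟨hξ.1, on_mono hξ.2 (by omega)⟩
  have cm : ∀ u ∈ N ⊓ On 3 F (-1), crossProduct ξ u ∈ N ⊓ On 3 F (-1) := fun u hu =>
    ⟨hN.cross _ hξ.1 _ hu.1, on_cross hξ.2 hu.2⟩
  have par : ∀ (n u : Fin 3 → Ls F) (j : Fin 3), n j = 1 → crossProduct u n = 0 → u = u j • n :=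
    fun n u j h h' => by
      simpa using eq_smul_of_cross (w := Pi.single j 1) h' (by simpa using h)
  have cl : ∀ u, u ⬝ᵥ ν = 0 → crossProduct ξ u = crossProduct ξ u j • ν := fun u hu =>
    par _ _ j hj (by rw [cross_cross', o, hu, zero_smul, zero_smul, sub_self])
  by_cases h : ∀ a b : F, a • crossProduct ξ s + b • crossProduct ξ s' = 0 → a = 0 ∧ b = 0
  · refine hN.split hν (single_on j) (by simpa using hj) ?_
      (pos_line (j := j) (cm s hs) (cm s' hs') (cl s o1) (cl s' o2) h)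
    have h0 : crossProduct ξ s j ≠ 0 := fun h0 =>
      one_ne_zero (h 1 0 (by rw [cl s o1, h0]; simp)).1
    have h1 := hd ![crossProduct ξ s, ξ, s] (fun i => by
      fin_cases i
      exacts [cm s hs, hξ', hs])
    have h2 := (triple_product_eq_det (crossProduct ξ s) ξ s).trans h1
    rw [cl s o1, smul_dotProduct, dotProduct_smul, smul_eq_mul, smul_eq_mul] at h2
    exact (mul_eq_zero.1 ((mul_eq_zero.1 h2).resolve_left h0)).resolve_left h0
  · push Not at h
    obtain ⟨a, b, h1, h2⟩ := h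
    have hη : a • s + b • s' ∈ N ⊓ On 3 F (-1) :=
      Submodule.add_mem _ (Submodule.smul_mem _ a hs) (Submodule.smul_mem _ b hs')
    have hi' : ∀ e e' : F, e • ξ + e' • (a • s + b • s') = 0 → e = 0 ∧ e' = 0 := fun e e' h => by
      obtain ⟨h3, h4, h5⟩ := hi e (e' * a) (e' * b) (by
        rw [← h, smul_add, smul_smul, smul_smul, add_assoc])
      refine ⟨h3, by_contra fun h6 => ?_⟩
      exact h2 ((mul_eq_zero.1 h4).resolve_left h6) ((mul_eq_zero.1 h5).resolve_left h6)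
    have h3 : crossProduct ξ (a • s + b • s') = 0 := by
      rw [← h1, map_add, c_smul, c_smul, map_smul, map_smul, ← c_smul, ← c_smul]
    obtain ⟨η, he⟩ : ∃ η, η = a • s + b • s' := ⟨_, rfl⟩
    rw [← he] at hη hi' h3
    obtain ⟨i, n, h4, h5, h6, h7⟩ := exists_prim (s := ξ) fun h =>
      one_ne_zero (hi' 1 0 (by simp [h])).1
    have h8 : η = η i • n := par _ _ i h5 (by
      rw [h7, map_smul, LinearMap.smul_apply, ← cross_anticomm, smul_eq_zero, neg_eq_zero] at h3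
      exact h3.resolve_left h6)
    refine hN.split h4 (single_on i) (by simpa using h5) ?_
      (pos_line (j := i) hξ' hη h7 h8 hi')
    have e1 := reg_h0 (hN.dot _ hξ.1 _ hξ.1) (ord_mono (on_dot hξ.2 hξ.2) (by omega))
    have e2 := reg_h0 (hN.dot _ hξ.1 _ hη.1) (on_dot hξ.2 hη.2)
    have e3 : (ξ ⬝ᵥ η) • ξ = (ξ ⬝ᵥ ξ) • η := by
      have := cross_cross' ξ η ξ
      rw [h3, map_zero, LinearMap.zero_apply, dotProduct_comm η] at this
      exact (sub_eq_zero.1 this.symm).symm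
    have e4 := (hi' ((ξ ⬝ᵥ η).coeff 0) (-(ξ ⬝ᵥ ξ).coeff 0) (by
      rw [neg_smul, c_smul, c_smul, ← e1, ← e2, e3, add_neg_cancel])).2
    rw [neg_eq_zero.1 e4, map_zero] at e1
    rw [h7, smul_dotProduct, dotProduct_smul, smul_eq_mul, smul_eq_mul] at e1
    exact (mul_eq_zero.1 ((mul_eq_zero.1 e1).resolve_left h6)).resolve_left h6

theorem split_so3 {N : Submodule F (Fin 3 → Ls F)} (hN : SD E N)
    (h1 : N ⊓ On 3 F 1 = ⊥ → N ⊔ On 3 F (-1) = ⊤)
    (h2 : ∃ s : Fin 3 → Fin 3 → Ls F, LinearIndependent F s ∧ ∀ i, s i ∈ N ⊓ On 3 F (-1))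
    (hM : ¬ Sst N) : Split N := by
  by_cases h : N ⊓ On 3 F 1 = ⊥
  · obtain ⟨s, hs, hs'⟩ := h2
    have hd : ∀ s : Fin 3 → Fin 3 → Ls F, (∀ i, s i ∈ N ⊓ On 3 F (-1)) → (of s).det = 0 :=
      fun s hs => by
        by_contra hd
        exact hM ⟨h1 h, s, hs, hd⟩
    obtain ⟨v, hv, hv'⟩ := Matrix.exists_mulVec_eq_zero_iff.2 (hd s hs')
    obtain ⟨j, ν, h3, h4, h5, h6⟩ := exists_prim hv
    have o : ∀ i, s i ⬝ᵥ ν = 0 := fun i => by
      have : s i ⬝ᵥ v = 0 := congrFun hv' i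
      rw [h6, dotProduct_smul, smul_eq_mul] at this
      exact (mul_eq_zero.1 this).resolve_left h5
    have hρ : (of fun i k => (s i k).coeff (-1) : Matrix (Fin 3) (Fin 3) F).det = 0 :=
      Matrix.exists_mulVec_eq_zero_iff.1 ⟨fun k => (ν k).coeff 0, fun h => by
        simpa [h4] using congrFun h j, funext fun i => by
        have := congrArg (fun z : Ls F => z.coeff (-1 + 0)) (o i)
        simp only [dotProduct, HahnSeries.coeff_sum, coeff_mul_lead ((hs' i).2 _) (h3 _)] at this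
        exact this⟩
    obtain ⟨c, hc, hc'⟩ := Matrix.exists_vecMul_eq_zero_iff.2 hρ
    have hξ : ∑ i, c i • s i ∈ N ⊓ On 3 F 0 :=
      ⟨N.sum_mem fun i _ => N.smul_mem _ (hs' i).1, fun k => ord_succ (n := -1)
        ((On 3 F (-1)).sum_mem (fun i _ => Submodule.smul_mem _ _ (hs' i).2) k) (by
          have := congrFun hc' k
          simpa [vecMul, dotProduct, HahnSeries.coeff_sum] using this)⟩
    have oξ : (∑ i, c i • s i) ⬝ᵥ ν = 0 := by
      rw [sum_dotProduct]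
      exact Finset.sum_eq_zero fun i _ => by rw [c_smul, smul_dotProduct, o, smul_zero]
    obtain ⟨i, hi⟩ := Function.ne_iff.1 hc
    have ind := Fintype.linearIndependent_iff.1 hs
    refine split_plane hN hd h3 h4 hξ (hs' (i + 1)) (hs' (i + 2)) oξ (o _) (o _)
      fun e a b he => ?_
    have h7 := ind (e • c + Pi.single (i + 1) a + Pi.single (i + 2) b) (by
      rw [← he]
      simp [add_smul, Finset.sum_add_distrib, Finset.smul_sum, smul_smul, Pi.single_apply])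
    have h8 : e = 0 := by
      have := h7 i
      refine (mul_eq_zero.1 (?_ : e * c i = 0)).resolve_right hi
      fin_cases i <;> simpa using this
    have h9 := h7 (i + 1)
    have h10 := h7 (i + 2)
    fin_cases i <;> exact ⟨h8, by simpa [h8] using h9, by simpa [h8] using h10⟩
  · obtain ⟨s, hs, hs'⟩ := (Submodule.ne_bot_iff _).1 h
    obtain ⟨j, n, h3, h4, h5, h6⟩ := exists_prim hs'
    refine hN.split h3 (single_on j) (by simpa using h4) ?_
      (Or.inl ⟨s j, (congrArg (· ∈ _) h6).mp hs.1, h5, hs.2 j⟩)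
    have e1 := reg_eq_zero (hN.dot _ hs.1 _ hs.1) (ord_mono (on_dot hs.2 hs.2) (by omega))
    rw [h6, smul_dotProduct, dotProduct_smul, smul_eq_mul, smul_eq_mul] at e1
    exact (mul_eq_zero.1 ((mul_eq_zero.1 e1).resolve_left h5)).resolve_left h5

/-- For `SO_3` the lattice is the lattice of the adjoint bundle. -/
theorem so3_eq {M : Submodule F (Fin 3 → Ls F)} {T : ℕ × Fin 3 → Fin 3 → Ls F}
    (h : IsOb E SO3 M T) : M = LinearMap.range (lin T) := by
  have hd : ∀ u : Fin 3 → Ls F, (∀ m ∈ M, E.Reg (u ⬝ᵥ m)) → u ∈ M := fun u hu =>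
    (h.dual (Or.inr rfl)).1 u fun m hm =>
      (congrArg (fun z : Matrix (Fin 3) (Fin 3) (Ls F) => E.Reg (u ⬝ᵥ z *ᵥ m)) (cst_one 3)).mpr
        ((congrArg (fun z : Fin 3 → Ls F => E.Reg (u ⬝ᵥ z)) (one_mulVec m)).mpr (hu m hm))
  have h1 : M ≤ LinearMap.range (lin T) := fun ξ hξ =>
    stab E SO3 (Or.inr rfl) F M T h _ fun m hm => by
      refine (congrArg (· ∈ M) (rot_mulVec ξ m)).mpr ?_
      rw [ii, ← c_smul]
      refine M.smul_mem _ (hd _ fun m' hm' => ?_)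
      refine (congrArg E.Reg ((cross_dot' ξ m m').trans (triple_product_eq_det ξ m m'))).mpr ?_
      exact h.vol ![ξ, m, m'] fun i => by
        fin_cases i
        exacts [hξ, hm, hm']
  exact le_antisymm h1 fun ξ hξ => hd _ fun m hm => (h.sd (Or.inr rfl)).dot _ hξ _ (h1 hm)

theorem fld : FLD := by
  rintro E G (rfl | rfl) F _ _ M T h hM
  · exact fld_sl2 h hM
  · have e := so3_eq h
    have h1 := h.dual (Or.inr rfl)
    exact split_so3 (h.sd (Or.inr rfl)) (e ▸ h1.2.1) (e ▸ h1.2.2.1) (e ▸ hM)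

end

end Vale.Agent.P286ER
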