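import Vale.Agent.P286ER.Reg

/-!
# Discrete modules of rank one are invertible
-/

namespace Vale.Agent.P286ER

open Vale.Agent.P286 Vale.Agent.P286E HahnSeries

noncomputable section

attribute [-instance] HahnSeries.powerSeriesAlgebra

variable {E : Ell} {F : Type} [Field F] [Algebra ℂ F]

theorem bezout (E : Ell) (X Y : F)
    (h : Y ^ 2 = X ^ 3 + algebraMap ℂ F E.a * X + algebraMap ℂ F E.b) :
    ∃ α β : F, α * (2 * Y) + β * (3 * X ^ 2 + algebraMap ℂ F E.a) = 1 := by
  have : CharZero F := charZero_of_injective_algebraMap (algebraMap ℂ F).injective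
  by_cases hY : Y = 0
  · have hd : 3 * X ^ 2 + algebraMap ℂ F E.a ≠ 0 := fun h0 => E.disc <| by
      apply (algebraMap ℂ F).injective
      have ha : algebraMap ℂ F E.a = -3 * X ^ 2 := by linear_combination h0
      have hb : algebraMap ℂ F E.b = 2 * X ^ 3 := by
        rw [hY, ha] at h
        linear_combination -h
      simp only [map_add, map_mul, map_pow, map_ofNat, map_zero, ha, hb]
      ring
    exact ⟨0, _, by rw [zero_mul, zero_add, inv_mul_cancel₀ hd]⟩
  · exact ⟨(2 * Y)⁻¹, 0, by rw [zero_mul, add_zero, inv_mul_cancel₀ (mul_ne_zero two_ne_zero hY)]⟩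

/-- The normalised case. -/
theorem inv_one (D : Submodule F (Ls F)) (h1 : (1 : Ls F) ∈ D)
    (hr : ∀ r, E.Reg r → ∀ d ∈ D, r * d ∈ D) (hd : ∀ d ∈ D, Ord 1 d → d = 0) :
    ∃ (d u : Fin 2 → Ls F), (∀ i, d i ∈ D) ∧ (∀ i, ∀ d' ∈ D, E.Reg (u i * d')) ∧
      ∑ i, d i * u i = 1 := by
  have hR : ∀ r, E.Reg r → r ∈ D := fun r h => by simpa using hr r h 1 h1
  have h0 : ∀ d ∈ D, Ord 0 d → E.Reg d := fun d hD ho => by
    have h2 := hd _ (D.sub_mem hD (hR _ (reg_C (d.coeff 0))))
      (ord_succ (ord_sub ho (ord_C _)) (by simp))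
    rw [sub_eq_zero.1 h2]
    exact reg_C _
  by_cases hall : ∀ d ∈ D, E.Reg d
  · refine ⟨![1, 0], ![1, 0], fun i => ?_, fun i d' h => ?_, by simp⟩
    · fin_cases i
      exacts [h1, D.zero_mem]
    · fin_cases i
      · simpa using hall d' h
      · simpa using reg_zero
  obtain ⟨g, hg, hg1, hg2⟩ : ∃ g ∈ D, Ord (-1) g ∧ g.coeff (-1) = 1 := by
    push Not at hall
    obtain ⟨w, hw, hw'⟩ := hall
    obtain ⟨r, h2, h3⟩ := reg_span E w
    have h4 : (w - r).coeff (-1) ≠ 0 := fun h5 => hw' <| by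
      simpa using reg_add (h0 _ (D.sub_mem hw (hR r h2)) (ord_succ h3 h5)) h2
    exact ⟨_, D.smul_mem ((w - r).coeff (-1))⁻¹ (D.sub_mem hw (hR r h2)), ord_smul _ h3,
      by rw [coeff_smul, smul_eq_mul, inv_mul_cancel₀ h4]⟩
  have dec : ∀ w ∈ D, ∃ c : F, E.Reg (w - C c * g) := fun w hw => by
    obtain ⟨r, h2, h3⟩ := reg_span E w
    refine ⟨(w - r).coeff (-1), ?_⟩
    have h4 := h0 _ (D.sub_mem (D.sub_mem hw (hR r h2)) (D.smul_mem ((w - r).coeff (-1)) hg))
      (ord_succ (ord_sub h3 (ord_smul _ hg1))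
        (by rw [coeff_sub (x := w - r), coeff_smul, hg2, smul_eq_mul, mul_one, sub_self]))
    have h5 := reg_add h4 h2
    rw [← C_mul_eq_smul] at h5
    convert h5 using 1
    ring
  obtain ⟨X, hX⟩ := dec _ (hr _ reg_x g hg)
  obtain ⟨Y', hY'⟩ := dec _ (hr _ reg_y g hg)
  have ox : Ord (-2) (xs F) := ord_single _ _
  have o3 : Ord (-2) (xs F * g - C X * g - ys E F) := by
    have h2 : Ord (-3) (xs F * g) := ord_mul ox hg1
    have h3 : Ord (-1) (C X * g) := by simpa using ord_mul (ord_C X) hg1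
    refine ord_succ (n := -3) (ord_sub (ord_sub h2 (ord_mono h3 (by omega))) (ord_ys E)) ?_
    have h4 : (xs F * g).coeff (-3) = 1 := by
      have := coeff_mul_lead ox hg1
      rw [hg2, xs, coeff_single_same, one_mul] at this
      exact this
    rw [coeff_sub, coeff_sub, h4, h3 _ (by omega), ys_lead, sub_zero, sub_self]
  obtain ⟨α, hα⟩ : ∃ α, α = (xs F * g - C X * g - ys E F).coeff (-2) := ⟨_, rfl⟩
  have o1 : Ord (-1) (xs F * g - C X * g - ys E F - α • xs F) :=
    ord_succ (n := -2) (ord_sub o3 (ord_smul _ ox))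
      (by rw [coeff_sub, ← hα, coeff_smul, xs, coeff_single_same, smul_eq_mul, mul_one, sub_self])
  obtain ⟨β, hβ⟩ : ∃ β : F, xs F * g - C X * g - ys E F - α • xs F = C β :=
    ⟨_, reg_h0 (reg_sub (reg_sub hX reg_y) (reg_smul _ reg_x)) o1⟩
  rw [← C_mul_eq_smul] at hβ
  obtain ⟨Y, hY⟩ : ∃ Y : F, Y = β + α * X := ⟨_, rfl⟩
  have e1 : (xs F - C X) * (g - C α) = ys E F + C Y := by
    rw [hY, map_add, map_mul]
    linear_combination hβ
  have r2 : E.Reg ((ys E F - C Y') * (g - C α)) := by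
    have := reg_sub hY' (reg_mul (reg_C α) (reg_sub reg_y (reg_C Y')))
    convert this using 1
    ring
  obtain ⟨p, q, e2⟩ := reg_iff.1 r2
  have e3 := rep_zero (E := E) (p := (Polynomial.X - Polynomial.C X) * p -
    (Polynomial.X ^ 3 + Polynomial.C (algebraMap ℂ F E.a) * Polynomial.X +
      Polynomial.C (algebraMap ℂ F E.b) - Polynomial.C (Y * Y')))
    (q := (Polynomial.X - Polynomial.C X) * q - Polynomial.C (Y - Y')) (by
      simp only [map_sub, map_add, map_mul, map_pow, ev_C, ev_X]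
      linear_combination -(xs F - C X) * e2 + (ys E F - C Y') * e1 + ys_sq (A := F) E)
  have e4 : Y' = Y := by
    have := congrArg (Polynomial.eval X) e3.2
    simp only [Polynomial.eval_sub, Polynomial.eval_mul, Polynomial.eval_X, Polynomial.eval_C,
      Polynomial.eval_zero] at this
    linear_combination this
  have e5 : Y ^ 2 = X ^ 3 + algebraMap ℂ F E.a * X + algebraMap ℂ F E.b := by
    have := congrArg (Polynomial.eval X) e3.1
    simp only [Polynomial.eval_sub, Polynomial.eval_mul, Polynomial.eval_X, Polynomial.eval_C,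
      Polynomial.eval_zero, Polynomial.eval_add, Polynomial.eval_pow, e4] at this
    linear_combination this
  rw [e4] at r2
  have hx : xs F - C X ≠ 0 := fun h => by
    have := congrArg (fun z : Ls F => z.coeff (-2)) h
    simp [xs] at this
  have e6 : (ys E F - C Y) * (g - C α) =
      xs F ^ 2 + C X * xs F + C X ^ 2 + C (algebraMap ℂ F E.a) := by
    apply mul_left_cancel₀ hx
    have e7 := congrArg (C : F →+* Ls F) e5
    simp only [map_add, map_mul, map_pow] at e7
    linear_combination (ys E F - C Y) * e1 + ys_sq (A := F) E - e7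
  obtain ⟨a, b, hab⟩ := bezout E X Y e5
  have hg' : g - C α ∈ D := D.sub_mem hg (hR _ (reg_C α))
  have key : ∀ u : Ls F, E.Reg u → E.Reg (u * (g - C α)) → ∀ d' ∈ D, E.Reg (u * d') := by
    intro u hu hu' d' h
    obtain ⟨c, hc⟩ := dec d' h
    have := reg_add (reg_mul hu hc) (reg_mul (reg_C c) (reg_add hu' (reg_mul hu (reg_C α))))
    convert this using 1
    ring
  refine ⟨![C a * (g - C α) - C b * (xs F + C X + C X), C b * (g - C α) - C a],
    ![xs F - C X, ys E F - C Y], fun i => ?_, fun i => ?_, ?_⟩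
  · fin_cases i
    · exact D.sub_mem (hr _ (reg_C a) _ hg')
        (hR _ (reg_mul (reg_C b) (reg_add (reg_add reg_x (reg_C X)) (reg_C X))))
    · exact D.sub_mem (hr _ (reg_C b) _ hg') (hR _ (reg_C a))
  · fin_cases i
    · exact key _ (reg_sub reg_x (reg_C X)) (e1 ▸ reg_add reg_y (reg_C Y))
    · exact key _ (reg_sub reg_y (reg_C Y)) r2
  · have e7 := congrArg (C : F →+* Ls F) hab
    simp only [map_add, map_mul, map_pow, map_ofNat, map_one] at e7
    simp only [Fin.sum_univ_two, Matrix.cons_val_zero, Matrix.cons_val_one]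
    linear_combination C a * e1 + C b * e6 + e7

theorem inv : INV := by
  intro E F _ _ D hD hr ⟨n, hn⟩
  obtain ⟨d0, hd0, hne, hmax⟩ : ∃ d0 ∈ D, d0 ≠ 0 ∧ ∀ d ∈ D, d ≠ 0 → d.order ≤ d0.order := by
    obtain ⟨m, ⟨d0, h1, h2, h3⟩, hm⟩ := Int.exists_greatest_of_bdd
      (P := fun m => ∃ d ∈ D, d ≠ 0 ∧ d.order = m)
      ⟨n, fun m ⟨d, h1, h2, h3⟩ => by
        by_contra h
        exact h2 (hn d h1 (ord_mono (ord_order d) (by omega)))⟩
      (by
        obtain ⟨d, h1, h2⟩ := (Submodule.ne_bot_iff D).1 hD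
        exact ⟨_, d, h1, h2, rfl⟩)
    exact ⟨d0, h1, h2, fun d h h' => h3 ▸ hm _ ⟨d, h, h', rfl⟩⟩
  let D' : Submodule F (Ls F) :=
    { carrier := {w | d0 * w ∈ D}
      add_mem' := fun {u w} hu hw => by
        change d0 * (u + w) ∈ D
        rw [mul_add]
        exact D.add_mem hu hw
      zero_mem' := by
        change d0 * 0 ∈ D
        rw [mul_zero]
        exact D.zero_mem
      smul_mem' := fun c w hw => by
        change d0 * (c • w) ∈ D
        rw [← C_mul_eq_smul, mul_left_comm, C_mul_eq_smul]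
        exact D.smul_mem c hw }
  obtain ⟨d, u, h1, h2, h3⟩ := inv_one (E := E) D' (by change d0 * 1 ∈ D; rwa [mul_one])
    (fun r h w hw => by
      change d0 * (r * w) ∈ D
      rw [mul_left_comm]
      exact hr r h _ hw)
    (fun w hw ho => by
      by_contra h
      have h4 := hmax _ hw (mul_ne_zero hne h)
      have h5 := ord_mul (ord_order d0) ho (d0 * w).order (by omega)
      exact mul_ne_zero hne h (coeff_order_eq_zero.1 h5))
  refine ⟨2, fun i => d0 * d i, fun i => u i * d0⁻¹, h1, fun i d' h => ?_, ?_⟩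
  · rw [mul_assoc]
    refine h2 i _ ?_
    change d0 * (d0⁻¹ * d') ∈ D
    rwa [mul_inv_cancel_left₀ hne]
  · rw [← h3]
    refine Finset.sum_congr rfl fun i _ => ?_
    field_simp

/-- The multipliers of a discrete module of rank one are the functions. -/
theorem reg_of_mul (D : Submodule F (Ls F)) (hD : D ≠ ⊥)
    (hr : ∀ r, E.Reg r → ∀ d ∈ D, r * d ∈ D) (hn : ∃ n, ∀ d ∈ D, Ord n d → d = 0) {z : Ls F}
    (hz : ∀ d ∈ D, z * d ∈ D) : E.Reg z := by
  obtain ⟨k, d, u, h1, h2, h3⟩ := inv E F D hD hr hn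
  have e : z = ∑ i, u i * (z * d i) := by
    calc z = z * ∑ i, d i * u i := by rw [h3, mul_one]
      _ = _ := by
        rw [Finset.mul_sum]
        exact Finset.sum_congr rfl fun i _ => by ring
  rw [e]
  exact reg_sum _ fun i _ => h2 i _ (hz _ (h1 i))

end

end Vale.Agent.P286ER
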